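import Mathlib

/-!
# P244: the reaction inequalities of a warped flow with poles
-/

open Finset

namespace Vale.Agent.P244

/-- The reaction of `δ = E + (P - 1) w`, split into a damping term singular at the poles and a regular rest. -/
theorem delta_split (P E v w q c : ℝ) :
    (2 * E ^ 2 - 4 * E * v ^ 2) + (P - 1) * (-2 * (P * (v * v) + q) * w -
        2 * v * (P * (v * w) + c) + 2 * E * (w - 2 * (v * v))) =
      -(2 * (P + 1)) * (v * v) * (E + (P - 1) * w) +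
        (2 * (E - (P - 1) * (v * v)) ^ 2 + 2 * (P - 1) * (w + v * v) * (E - (P - 1) * (v * v)) +
          2 * (P - 1) * (q * (v * v) - q * (w + v * v) - v * c)) := by
  ring

/-- The reaction of one fibre's squared Hessian. -/
theorem hess_term_le {P M E₀ x y E v w q c Q : ℝ} (hP : 1 ≤ P) (hM : 1 ≤ M) (hQ : Q = P * (x * x) + q)
    (hq : 0 ≤ q) (hv : v * v ≤ M) (hE : |E| ≤ M) :
    2 * w * (-2 * Q * w - 2 * v * (P * (x * y) + c) + 2 * E * (w - 2 * (v * v))) +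
      2 * (P * (x * v)) * (x * (2 * E * v - Q * v) + v * (2 * E₀ * x - Q * x) - 2 * y * w) ≤
      4 * P * (|E₀ - (P - 1) * (x * x)| + |y + x * x|) * (w * w + P * (x * v * (x * v))) +
        14 * M ^ 2 * (w * w + P * (x * v * (x * v))) + 4 * M ^ 2 + 2 * (c * c) := by
  obtain ⟨D, hD⟩ : ∃ D, E₀ - (P - 1) * (x * x) = D := ⟨_, rfl⟩
  obtain ⟨a, ha⟩ : ∃ a, y + x * x = a := ⟨_, rfl⟩
  obtain ⟨B, hB⟩ : ∃ B, x * v = B := ⟨_, rfl⟩
  have key : 2 * w * (-2 * Q * w - 2 * v * (P * (x * y) + c) + 2 * E * (w - 2 * (v * v))) +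
      2 * (P * (x * v)) * (x * (2 * E * v - Q * v) + v * (2 * E₀ * x - Q * x) - 2 * y * w) =
      -(4 * P) * (x * x) * (B - w) ^ 2 - 4 * q * (w * w) - 4 * (v * c * w) + 4 * E * (w * w) -
        8 * E * (v * v) * w + 4 * P * (B * B) * (E + D - q) - 8 * P * a * (B * w) := by
    rw [hQ, ← hD, ← ha, ← hB]; ring
  rw [key, hD, ha, hB]
  have hP0 : 0 ≤ P := by linarith
  have h1 : 0 ≤ P * ((x * x) * (B - w) ^ 2) :=
    mul_nonneg hP0 (mul_nonneg (mul_self_nonneg x) (sq_nonneg _))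
  have h2 : 0 ≤ q * (w * w) := mul_nonneg hq (mul_self_nonneg w)
  have h3 : 0 ≤ q * (P * (B * B)) := mul_nonneg hq (mul_nonneg hP0 (mul_self_nonneg B))
  have h4 : -(4 * (v * c * w)) ≤ 2 * M * (w * w) + 2 * (c * c) := by
    linarith [mul_le_mul_of_nonneg_right hv (mul_self_nonneg w), sq_nonneg (v * w + c)]
  have h5 : E * (w * w) ≤ M * (w * w) :=
    mul_le_mul_of_nonneg_right (le_trans (le_abs_self E) hE) (mul_self_nonneg w)
  have hEv : |E * (v * v)| ≤ M * M := by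
    rw [abs_mul, abs_of_nonneg (mul_self_nonneg v)]
    exact mul_le_mul hE hv (mul_self_nonneg v) (by linarith)
  have h6 : -(8 * E * (v * v) * w) ≤ 4 * M ^ 2 * (w * w + 1) := by
    have h' : |w| * 2 ≤ w * w + 1 := by nlinarith [sq_abs w, sq_nonneg (|w| - 1)]
    have h'' := mul_le_mul hEv h' (mul_nonneg (abs_nonneg w) zero_le_two) (mul_nonneg (by linarith) (by linarith))
    rw [← mul_assoc, ← abs_mul] at h''
    linarith [neg_abs_le (E * (v * v) * w)]
  have h7 : P * (B * B) * E ≤ M * (P * (B * B)) := by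
    linarith [mul_le_mul_of_nonneg_left (le_trans (le_abs_self E) hE) (mul_nonneg hP0 (mul_self_nonneg B))]
  have h8 : P * (B * B) * D ≤ |D| * (P * (B * B)) := by
    linarith [mul_le_mul_of_nonneg_left (le_abs_self D) (mul_nonneg hP0 (mul_self_nonneg B))]
  have h9 : -(8 * P * a * (B * w)) ≤ 4 * P * |a| * (w * w + P * (B * B)) := by
    have hb : B * B ≤ P * (B * B) := le_mul_of_one_le_left (mul_self_nonneg B) hP
    have hbw : |B * w| * 2 ≤ w * w + P * (B * B) := by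
      rw [abs_mul]; nlinarith [sq_abs B, sq_abs w, sq_nonneg (|B| - |w|)]
    have h' := mul_le_mul_of_nonneg_left hbw (abs_nonneg a)
    rw [← mul_assoc, ← abs_mul] at h'
    have h'' := mul_le_mul_of_nonneg_left h' hP0
    linarith [mul_le_mul_of_nonneg_left (neg_abs_le (a * (B * w))) hP0]
  have hM2 : M ≤ M ^ 2 := by nlinarith
  have hh : 0 ≤ w * w + P * (B * B) := add_nonneg (mul_self_nonneg w) (mul_nonneg hP0 (mul_self_nonneg B))
  linarith [mul_le_mul_of_nonneg_right hM2 (mul_self_nonneg w),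
    mul_le_mul_of_nonneg_right hM2 (mul_nonneg hP0 (mul_self_nonneg B)),
    mul_nonneg (mul_nonneg hP0 (abs_nonneg D)) (mul_self_nonneg w), mul_nonneg (sq_nonneg M) hh,
    le_mul_of_one_le_left (mul_nonneg (abs_nonneg D) (mul_nonneg hP0 (mul_self_nonneg B))) hP,
    mul_nonneg (sq_nonneg M) (mul_self_nonneg w), mul_nonneg (sq_nonneg M) (mul_nonneg hP0 (mul_self_nonneg B))]

/-- Cauchy's inequality with weights. -/
theorem weighted_cs {ι : Type*} (s : Finset ι) (P f g : ι → ℝ) (hP : ∀ i ∈ s, 0 ≤ P i) :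
    (∑ i ∈ s, P i * (f i * g i)) * (∑ i ∈ s, P i * (f i * g i)) ≤
      (∑ i ∈ s, P i * (f i * f i)) * (∑ i ∈ s, P i * (g i * g i)) := by
  have := sum_sq_le_sum_mul_sum_of_sq_le_mul s (r := fun i => P i * (f i * g i))
    (f := fun i => P i * (f i * f i)) (g := fun i => P i * (g i * g i))
    (fun i hi => mul_nonneg (hP i hi) (mul_self_nonneg _)) (fun i hi => mul_nonneg (hP i hi) (mul_self_nonneg _))
    fun i hi => le_of_eq (by ring)
  rwa [sq] at this

/-- The cross term between the Hessian and the gradient of the other warping functions. -/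
theorem cross_term {P R w w' B B' q' L : ℝ} (hR : 0 ≤ R) (hP : 0 ≤ P) (hL : 0 < L) :
    -2 * q' * (R * (2 * (w * w') + P * (2 * (B * B')))) ≤
      2 * L * (R * (w' * w' + P * (B' * B'))) + 2 / L * (q' * q') * (R * (w * w + P * (B * B))) := by
  have e : ∀ s t : ℝ, -4 * q' * (s * t) ≤ 2 * L * (t * t) + 2 / L * (q' * q') * (s * s) := fun s t => by
    have h : 0 ≤ 2 / L * (L * t + q' * s) ^ 2 := mul_nonneg (div_nonneg zero_le_two hL.le) (sq_nonneg _)
    have h' : 2 / L * (L * t + q' * s) ^ 2 =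
        2 * L * (t * t) + 4 * q' * (s * t) + 2 / L * (q' * q') * (s * s) := by field_simp; ring
    linarith
  have h1 := mul_le_mul_of_nonneg_left (e w w') hR
  have h2 := mul_le_mul_of_nonneg_left (e B B') (mul_nonneg hR hP)
  linarith

/-- A large multiple of the squared axial Ricci curvature absorbs the reaction. -/
theorem cap_absorb {A : ℝ} (hA : 0 ≤ A) :
    ∃ N C, 0 ≤ N ∧ ∀ K s : ℝ, 0 ≤ s →
      A * ((|K| + (1 + s)) * (|K| + (1 + s))) + A * (|K| + (1 + s)) * ((1 + s) * (1 + s)) -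
        N * (2 * (K * K)) - (s * s) * (s * s) ≤ C := by
  refine ⟨4 * A ^ 2 + A, 1 + 6 * A * (64 * A + 1) ^ 3, by positivity, fun K s hs => ?_⟩
  obtain ⟨F, hF⟩ : ∃ F, 1 + s = F := ⟨_, rfl⟩
  rw [hF]
  have hF1 : 1 ≤ F := by linarith
  have hF0 : 0 ≤ F := by linarith
  have h1 : (|K| + F) * (|K| + F) ≤ 2 * (K * K) + 2 * (F * F) := by
    nlinarith [sq_abs K, sq_nonneg (|K| - F)]
  have h2 : A * |K| * (F * F) ≤ 8 * A ^ 2 * (K * K) + (F * F) * (F * F) / 32 := by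
    nlinarith [sq_abs K, sq_nonneg (A * |K| - F * F / 16)]
  have h3 : A * (F * F * F) ≤ (F * F) * (F * F) / 64 + A * (64 * A + 1) ^ 3 := by
    rcases le_total F (64 * A + 1) with hle | hle
    · have : F * F * F ≤ (64 * A + 1) ^ 3 := by
        rw [show F * F * F = F ^ 3 by ring]; exact pow_le_pow_left₀ hF0 hle 3
      linarith [mul_le_mul_of_nonneg_left this hA, mul_nonneg (mul_nonneg hF0 hF0) (mul_nonneg hF0 hF0)]
    · have h' : A * (F * F * F) ≤ F / 64 * (F * F * F) :=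
        mul_le_mul_of_nonneg_right (by linarith) (by positivity)
      linarith [mul_nonneg hA (pow_nonneg (by linarith : 0 ≤ 64 * A + 1) 3)]
  have h4 : A * (F * F) ≤ A * (F * F * F) :=
    mul_le_mul_of_nonneg_left (le_mul_of_one_le_right (mul_nonneg hF0 hF0) hF1) hA
  have h5 : (F * F) * (F * F) ≤ 8 + 8 * ((s * s) * (s * s)) := by
    subst hF
    nlinarith [sq_nonneg (s - 1), sq_nonneg (s * s - 1), sq_nonneg (s + 1), mul_nonneg hs (sq_nonneg (s - 1)),
      mul_nonneg hs hs, sq_nonneg (s * s - s)]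
  have h1' := mul_le_mul_of_nonneg_left h1 hA
  linarith [mul_nonneg (sq_nonneg s) (sq_nonneg s), mul_nonneg hA (pow_nonneg (by linarith : 0 ≤ 64 * A + 1) 3)]


theorem axial_bounds {P M K W Bs q R So σ aR D s Z : ℝ} (hP1 : 1 ≤ P) (hM : 1 ≤ M) (hs0 : 0 ≤ s)
    (hZ : |K| + (1 + s) = Z) (hWb : |W| ≤ M * s) (hBb : |Bs| ≤ M * s) (hq0 : 0 ≤ q) (hq : q ≤ M)
    (hR : |R| ≤ M) (hS : |So| ≤ M) (hσ0 : 0 ≤ σ) (hσ : σ ≤ M) (eK : K = P * aR + W + q)
    (eR : R = P * (D - 2 * aR) + So - 2 * W - 2 * (P * Bs) - q - σ) :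
    |aR| ≤ P * M * Z ∧ |D| ≤ 10 * (P * M * Z) := by
  have hP0 : 0 ≤ P := by linarith
  have hZ1 : 1 ≤ Z := by linarith [abs_nonneg K]
  have hPMs : P * |Bs| ≤ P * (M * s) := mul_le_mul_of_nonneg_left hBb hP0
  have hMs : 0 ≤ M * s := mul_nonneg (by linarith) hs0
  have ha : |aR| ≤ P * M * Z := by
    have h1 : |P * aR| ≤ |K| + M * (1 + s) := abs_le.2
      ⟨by linarith [neg_abs_le K, le_abs_self W], by linarith [le_abs_self K, neg_abs_le W]⟩
    rw [abs_mul, abs_of_nonneg hP0] at h1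
    have h2 : |K| + M * (1 + s) ≤ P * M * Z := by
      have := le_mul_of_one_le_left (mul_nonneg (by linarith : 0 ≤ M) (by linarith : 0 ≤ Z)) hP1
      linarith [le_mul_of_one_le_left (abs_nonneg K) hM, show M * Z = M * |K| + M * (1 + s) by rw [← hZ]; ring]
    linarith [le_mul_of_one_le_left (abs_nonneg aR) hP1]
  have hDb : |D| ≤ 10 * (P * M * Z) := by
    have h1 : |P * (D - 2 * aR)| ≤ 4 * M + 2 * (M * s) + 2 * (P * (M * s)) := abs_le.2
      ⟨by linarith [(abs_le.1 hR).1, (abs_le.1 hS).2, neg_abs_le W,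
          mul_le_mul_of_nonneg_left (neg_abs_le Bs) hP0],
       by linarith [(abs_le.1 hR).2, (abs_le.1 hS).1, le_abs_self W,
          mul_le_mul_of_nonneg_left (le_abs_self Bs) hP0]⟩
    rw [abs_mul, abs_of_nonneg hP0] at h1
    have h2 := le_mul_of_one_le_left (abs_nonneg (D - 2 * aR)) hP1
    have h3 : M ≤ P * M * Z := by
      calc M = 1 * M * 1 := by ring
        _ ≤ P * M * Z := mul_le_mul (mul_le_mul_of_nonneg_right hP1 (by linarith)) hZ1 zero_le_one (by positivity)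
    have h4 : P * (M * s) ≤ P * M * Z := by
      rw [mul_assoc P M Z]
      exact mul_le_mul_of_nonneg_left (mul_le_mul_of_nonneg_left (by linarith [abs_nonneg K]) (by linarith)) hP0
    have h5 : M * s ≤ P * M * Z := (le_mul_of_one_le_left hMs hP1).trans h4
    have h6 := abs_add_le (D - 2 * aR) (2 * aR)
    rw [sub_add_cancel, abs_mul, abs_two] at h6
    have h7 : 0 ≤ P * M * Z := by positivity
    linarith
  exact ⟨ha, hDb⟩

theorem rest_bound {P M Z D aR q qX vc : ℝ} (hP1 : 1 ≤ P) (hM : 1 ≤ M) (hZ1 : 1 ≤ Z)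
    (ha : |aR| ≤ P * M * Z) (hDb : |D| ≤ 10 * (P * M * Z)) (hq0 : 0 ≤ q) (hq : q ≤ M) (hqX0 : 0 ≤ qX)
    (hqX : qX ≤ Z * Z) (hc3 : |vc| ≤ Z * Z) :
    |2 * D ^ 2 + 2 * (P - 1) * aR * D + 2 * (P - 1) * (qX - q * aR - vc)| ≤
      240 * (P ^ 3 * M ^ 2) * (Z * Z) := by
  have hP0 : 0 ≤ P := by linarith
  have hU0 : 0 ≤ P * M * Z := by positivity
  have g1 : |2 * D ^ 2| ≤ 200 * ((P * M * Z) * (P * M * Z)) := by
    rw [abs_of_nonneg (by positivity), ← sq_abs]
    nlinarith [mul_le_mul hDb hDb (abs_nonneg D) (by positivity)]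
  have g2 : |2 * (P - 1) * aR * D| ≤ 20 * P * ((P * M * Z) * (P * M * Z)) := by
    rw [abs_mul, abs_mul, abs_of_nonneg (by linarith : 0 ≤ 2 * (P - 1))]
    calc 2 * (P - 1) * |aR| * |D| ≤ 2 * P * (P * M * Z) * (10 * (P * M * Z)) :=
          mul_le_mul (mul_le_mul (by linarith) ha (abs_nonneg _) (by linarith)) hDb (abs_nonneg _) (by positivity)
      _ = _ := by ring
  have g3 : |qX - q * aR - vc| ≤
      2 * (Z * Z) + M * (P * M * Z) := by
    have g : |q * aR| ≤ M * (P * M * Z) := by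
      rw [abs_mul, abs_of_nonneg hq0]; exact mul_le_mul hq ha (abs_nonneg _) (by linarith)
    refine abs_le.2 ⟨?_, ?_⟩ <;>
      linarith [abs_le.1 g, abs_le.1 hc3, hqX, hqX0, mul_self_nonneg Z]
  have g4 : |2 * (P - 1) * (qX - q * aR -
      vc)| ≤ 2 * P * (2 * (Z * Z) + M * (P * M * Z)) := by
    rw [abs_mul, abs_of_nonneg (by linarith : 0 ≤ 2 * (P - 1))]
    exact mul_le_mul (by linarith) g3 (abs_nonneg _) (by linarith)
  refine (abs_add_le _ _).trans ((add_le_add_left (abs_add_le _ _) _).trans ?_)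
  have b1 : (P * M * Z) * (P * M * Z) ≤ P ^ 3 * M ^ 2 * (Z * Z) := by
    nlinarith [mul_le_mul_of_nonneg_right hP1 (by positivity : 0 ≤ P ^ 2 * (M ^ 2 * (Z * Z)))]
  have b2 : P * (Z * Z) ≤ P ^ 3 * M ^ 2 * (Z * Z) := by
    refine mul_le_mul_of_nonneg_right ?_ (mul_self_nonneg Z)
    calc P = P * (1 * 1) := by ring
      _ ≤ P * (P ^ 2 * M ^ 2) := mul_le_mul_of_nonneg_left
          (mul_le_mul (one_le_pow₀ hP1) (one_le_pow₀ hM) zero_le_one (by positivity)) hP0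
      _ = P ^ 3 * M ^ 2 := by ring
  have b3 : P * (M * (P * M * Z)) ≤ P ^ 3 * M ^ 2 * (Z * Z) := by
    calc P * (M * (P * M * Z)) = P ^ 2 * M ^ 2 * (Z * 1) := by ring
      _ ≤ P ^ 3 * M ^ 2 * (Z * Z) := mul_le_mul
          (mul_le_mul_of_nonneg_right (pow_le_pow_right₀ hP1 (by norm_num)) (sq_nonneg M))
          (mul_le_mul_of_nonneg_left hZ1 (by linarith)) (by linarith) (by positivity)
  linarith [(by positivity : 0 ≤ P ^ 3 * M ^ 2 * (Z * Z))]

theorem hess_coeff {P M Z D aR c Pt s : ℝ} (hP1 : 1 ≤ P) (hM : 1 ≤ M) (hs0 : 0 ≤ s) (hZ1 : 1 ≤ Z)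
    (ha : |aR| ≤ P * M * Z) (hDb : |D| ≤ 10 * (P * M * Z)) (hc2' : c * c ≤ M * (s * s)) (hPt0 : 0 ≤ Pt)
    (hPt : Pt ≤ M) :
    (4 * P * (|D| + |aR|) + 14 * M ^ 2) * (s * s) + (4 * M ^ 2 + 2 * (c * c)) * Pt ≤
      66 * (P ^ 3 * M ^ 3) * (Z * ((1 + s) * (1 + s))) := by
  have hP0 : 0 ≤ P := by linarith
  have h1 : 4 * P * (|D| + |aR|) + 14 * M ^ 2 ≤ 60 * (P ^ 3 * M ^ 2) * Z := by
    have d1 : P * (P * M * Z) ≤ P ^ 3 * M ^ 2 * Z := by
      calc P * (P * M * Z) = P ^ 2 * M ^ 1 * Z := by ring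
        _ ≤ P ^ 3 * M ^ 2 * Z := mul_le_mul_of_nonneg_right (mul_le_mul (pow_le_pow_right₀ hP1 (by norm_num))
            (pow_le_pow_right₀ hM (by norm_num)) (by positivity) (by positivity)) (by linarith)
    have d2 : M ^ 2 ≤ P ^ 3 * M ^ 2 * Z := by
      calc M ^ 2 = 1 * M ^ 2 * 1 := by ring
        _ ≤ P ^ 3 * M ^ 2 * Z := mul_le_mul (mul_le_mul_of_nonneg_right (one_le_pow₀ hP1) (sq_nonneg M))
            hZ1 zero_le_one (by positivity)
    linarith [mul_le_mul_of_nonneg_left ha hP0, mul_le_mul_of_nonneg_left hDb hP0, (by positivity : 0 ≤ P ^ 3 * M ^ 2 * Z)]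
  have h2 : s * s + 1 ≤ (1 + s) * (1 + s) := by nlinarith
  have hPM : P ^ 3 * M ^ 2 * Z ≤ P ^ 3 * M ^ 3 * Z :=
    mul_le_mul_of_nonneg_right (mul_le_mul_of_nonneg_left (pow_le_pow_right₀ hM (by norm_num)) (by positivity))
      (by linarith)
  have h3 : (4 * M ^ 2 + 2 * (c * c)) * Pt ≤
      6 * (P ^ 3 * M ^ 3 * Z) * (s * s + 1) := by
    refine le_trans (mul_le_mul_of_nonneg_left hPt (by linarith [mul_self_nonneg c, sq_nonneg M])) ?_
    have d3 : M ^ 3 ≤ P ^ 3 * M ^ 3 * Z := by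
      calc M ^ 3 = 1 * M ^ 3 * 1 := by ring
        _ ≤ P ^ 3 * M ^ 3 * Z := mul_le_mul (mul_le_mul_of_nonneg_right (one_le_pow₀ hP1) (by positivity))
            hZ1 zero_le_one (by positivity)
    have d4 : M * M ≤ M ^ 3 := by rw [← sq]; exact pow_le_pow_right₀ hM (by norm_num)
    linarith [mul_le_mul_of_nonneg_left hc2' (by linarith : 0 ≤ M),
      mul_le_mul_of_nonneg_right (d4.trans d3) (mul_self_nonneg s), (by positivity : 0 ≤ P ^ 3 * M ^ 3 * Z),
      mul_nonneg (by positivity : 0 ≤ P ^ 3 * M ^ 3 * Z) (mul_self_nonneg s)]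
  have h4 := mul_le_mul_of_nonneg_right (h1.trans (by linarith : _ ≤ 60 * (P ^ 3 * M ^ 3 * Z)))
    (mul_self_nonneg s)
  have h5 := mul_le_mul_of_nonneg_left h2 (by positivity : 0 ≤ 66 * (P ^ 3 * M ^ 3 * Z))
  linarith [(by positivity : 0 ≤ P ^ 3 * M ^ 3 * Z)]

end Vale.Agent.P244
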