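import Mathlib
import Vale.Agent.P244.Defs

/-!
# P244: multiply warped Ricci flows with two poles

The metric is `φ(x,t)² dx² + exp (2 u₀) g₀ + ∑ᵢ exp (2 uᵢ) gᵢ` on the open dense part `ℝ × Sᵖ × N₁ × ⋯ × Nₘ`
of `S^{p+1} × N₁ × ⋯ × Nₘ`, where `g₀` is the unit round metric and `gᵢ` is Einstein with constant `kᵢ`.
The two poles are at `x = ±∞`.
-/

open Set

namespace Vale.Agent.P244

noncomputable section

/-- Ricci flow of a multiply warped metric on `(a, T)` which closes up at two poles: the equations, and,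
on each compact time interval, bounded curvature, bounded warping functions of the other fibres and a
bounded round radius tending to zero at both ends. -/
structure IsCapFlow {m : ℕ} (p : Fin (m + 1) → ℕ) (k : Fin (m + 1) → ℝ) (a T : ℝ) (φ : ℝ × ℝ → ℝ)
    (u : Fin (m + 1) → ℝ × ℝ → ℝ) : Prop where
  smoothφ : ∀ n : ℕ, ContDiffOn ℝ n φ (slab a T)
  smooth : ∀ i, ∀ n : ℕ, ContDiffOn ℝ n (u i) (slab a T)
  pos : ∀ z ∈ slab a T, 0 < φ z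
  eqφ : ∀ z ∈ slab a T, dT φ z = φ z * ∑ j, (p j : ℝ) * (dS φ (dS φ (u j)) z + dS φ (u j) z ^ 2)
  eq : ∀ i, ∀ z ∈ slab a T, dT (u i) z = dS φ (dS φ (u i)) z +
    dS φ (u i) z * (∑ j, (p j : ℝ) * dS φ (u j) z) - k i * Real.exp (-2 * u i z)
  bounded : ∀ t₀ t₁, a < t₀ → t₁ < T → ∃ C, ∀ x, ∀ t ∈ Icc t₀ t₁,
    Real.exp (u 0 (x, t)) ≤ C ∧
      |k 0 * Real.exp (-2 * u 0 (x, t)) - ((p 0 : ℝ) - 1) * dS φ (u 0) (x, t) ^ 2| ≤ C ∧
      |dS φ (dS φ (u 0)) (x, t) + dS φ (u 0) (x, t) ^ 2| ≤ C ∧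
      ∀ i : Fin m, |u i.succ (x, t)| ≤ C ∧ |dS φ (u i.succ) (x, t)| ≤ C ∧
        |dS φ (dS φ (u i.succ)) (x, t)| ≤ C ∧ |dS φ (u 0) (x, t) * dS φ (u i.succ) (x, t)| ≤ C
  poles : ∀ t₀ t₁, a < t₀ → t₁ < T → ∀ ε > 0, ∃ r : ℝ, ∀ x, ∀ t ∈ Icc t₀ t₁, r ≤ |x| →
    Real.exp (u 0 (x, t)) < ε

end

end Vale.Agent.P244
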