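import Mathlib
import Vale.Agent.P244.Defs
import Vale.Agent.P244.Calculus
import Vale.Agent.P244.Multi.Defs
import Vale.Agent.P244.Multi.Algebra
import Vale.Agent.P244.Multi.Evolution
import Vale.Agent.P244.Cap.Defs

/-!
# P244: evolution equations of a warped flow, without periodicity
-/

open Set Finset

namespace Vale.Agent.P244

noncomputable section

/-- The equations alone. -/
structure IsWarpEqs {m : ℕ} (p : Fin m → ℕ) (k : Fin m → ℝ) (a T : ℝ) (φ : ℝ × ℝ → ℝ)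
    (u : Fin m → ℝ × ℝ → ℝ) : Prop where
  smoothφ : ∀ n : ℕ, ContDiffOn ℝ n φ (slab a T)
  smooth : ∀ i, ∀ n : ℕ, ContDiffOn ℝ n (u i) (slab a T)
  pos : ∀ z ∈ slab a T, 0 < φ z
  eqφ : ∀ z ∈ slab a T, dT φ z = φ z * ∑ j, (p j : ℝ) * (dS φ (dS φ (u j)) z + dS φ (u j) z ^ 2)
  eq : ∀ i, ∀ z ∈ slab a T, dT (u i) z = dS φ (dS φ (u i)) z +
    dS φ (u i) z * (∑ j, (p j : ℝ) * dS φ (u j) z) - k i * Real.exp (-2 * u i z)

theorem IsCapFlow.eqs {m : ℕ} {p : Fin (m + 1) → ℕ} {k : Fin (m + 1) → ℝ} {a T : ℝ} {φ : ℝ × ℝ → ℝ}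
    {u : Fin (m + 1) → ℝ × ℝ → ℝ} (h : IsCapFlow p k a T φ u) : IsWarpEqs p k a T φ u :=
  ⟨h.smoothφ, h.smooth, h.pos, h.eqφ, h.eq⟩

variable {m : ℕ} {p : Fin m → ℕ} {k : Fin m → ℝ} {φ : ℝ × ℝ → ℝ} {u : Fin m → ℝ × ℝ → ℝ}

namespace IsWarpEqs

variable {a T : ℝ} (h : IsWarpEqs p k a T φ u) {z : ℝ × ℝ} {i : Fin m}
include h

theorem smP : Sm a T φ := h.smoothφ
theorem smU (i : Fin m) : Sm a T (u i) := h.smooth i
theorem smV (i : Fin m) : Sm a T (dS φ (u i)) := Sm.dS h.smP h.pos (h.smU i)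
theorem smW (i : Fin m) : Sm a T (dS φ (dS φ (u i))) := Sm.dS h.smP h.pos (h.smV i)
theorem smE (i : Fin m) : Sm a T (fibE k u i) := (Sm.const _).mul ((h.smU i).exp (-2))
theorem smVV (i : Fin m) : Sm a T fun z => dS φ (u i) z * dS φ (u i) z := (h.smV i).mul (h.smV i)
theorem smSig : Sm a T (msig p φ u) := Sm.sum fun j _ => (Sm.const _).mul (h.smV j)
theorem smQ : Sm a T (mQ p φ u) := Sm.sum fun j _ => (Sm.const _).mul (h.smVV j)
theorem smK : Sm a T (mK p φ u) := Sm.sum fun j _ => (Sm.const _).mul ((h.smW j).add (h.smVV j))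
theorem smS : Sm a T (mS p k u) := Sm.sum fun j _ => (Sm.const _).mul (h.smE j)

theorem heat_u (hz : z ∈ slab a T) : heat φ (msig p φ u) (u i) z = -fibE k u i z := by
  rw [heat, h.eq i z hz]; simp only [msig, fibE]; ring

theorem dS_sig (hz : z ∈ slab a T) :
    dS φ (msig p φ u) z = ∑ j, (p j : ℝ) * dS φ (dS φ (u j)) z := by
  change dS φ (fun w => ∑ j, (p j : ℝ) * dS φ (u j) w) z = _
  rw [dS_fsum hz fun j _ => (Sm.const _).mul (h.smV j)]
  exact sum_congr rfl fun j _ => dS_const_mul hz (h.smV j) _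

theorem dS_Q (hz : z ∈ slab a T) :
    dS φ (mQ p φ u) z = 2 * ∑ j, (p j : ℝ) * (dS φ (u j) z * dS φ (dS φ (u j)) z) := by
  change dS φ (fun w => ∑ j, (p j : ℝ) * (dS φ (u j) w * dS φ (u j) w)) z = _
  rw [dS_fsum hz fun j _ => (Sm.const _).mul (h.smVV j), mul_sum]
  exact sum_congr rfl fun j _ => by
    rw [dS_const_mul hz (h.smVV j), dS_mul hz (h.smV j) (h.smV j)]; ring

theorem dS_E (hz : z ∈ slab a T) : dS φ (fibE k u i) z = -2 * fibE k u i z * dS φ (u i) z := by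
  change dS φ (fun w => k i * Real.exp (-2 * u i w)) z = _
  rw [dS_const_mul hz ((h.smU i).exp (-2)), dS_exp hz (h.smU i)]; simp only [fibE]; ring

theorem phi_rate (hz : z ∈ slab a T) : dT φ z / φ z = mK p φ u z := by
  rw [h.eqφ z hz, mul_div_cancel_left₀ _ (h.pos z hz).ne']; simp only [mK, sq]

theorem dT_v (hz : z ∈ slab a T) :
    dT (dS φ (u i)) z = dS φ (dS φ (dS φ (u i))) z + msig p φ u z * dS φ (dS φ (u i)) z +
      2 * fibE k u i z * dS φ (u i) z - mQ p φ u z * dS φ (u i) z := by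
  have e : EqOn (dT (u i))
      (fun w => dS φ (dS φ (u i)) w + dS φ (u i) w * msig p φ u w - fibE k u i w) (slab a T) :=
    fun w hw => by rw [h.eq i w hw]; rfl
  rw [dT_dS h.smP h.pos hz (h.smU i), dS_congr hz e, h.phi_rate hz, mK_eq,
    dS_sub hz ((h.smW i).add ((h.smV i).mul h.smSig)) (h.smE i), dS_add hz (h.smW i) ((h.smV i).mul h.smSig),
    dS_mul hz (h.smV i) h.smSig, h.dS_sig hz, h.dS_E hz]
  ring

theorem heat_v (hz : z ∈ slab a T) :
    heat φ (msig p φ u) (dS φ (u i)) z =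
      2 * fibE k u i z * dS φ (u i) z - mQ p φ u z * dS φ (u i) z := by
  rw [heat, h.dT_v hz]; ring

theorem heat_vv (hz : z ∈ slab a T) :
    heat φ (msig p φ u) (fun w => dS φ (u i) w * dS φ (u i) w) z =
      2 * (dS φ (u i) z * dS φ (u i) z) * (2 * fibE k u i z - mQ p φ u z) -
        2 * (dS φ (dS φ (u i)) z * dS φ (dS φ (u i)) z) := by
  rw [heat_mul h.smP h.pos hz (h.smV i) (h.smV i), h.heat_v hz]; ring

theorem heat_w (hz : z ∈ slab a T) :
    heat φ (msig p φ u) (dS φ (dS φ (u i))) z =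
      -2 * mQ p φ u z * dS φ (dS φ (u i)) z -
        2 * dS φ (u i) z * (∑ j, (p j : ℝ) * (dS φ (u j) z * dS φ (dS φ (u j)) z)) +
        2 * fibE k u i z * (dS φ (dS φ (u i)) z - 2 * (dS φ (u i) z * dS φ (u i) z)) := by
  have hW' := Sm.dS h.smP h.pos (h.smW i)
  have hA := h.smSig.mul (h.smW i)
  have hB := ((Sm.const (2 : ℝ)).mul (h.smE i)).mul (h.smV i)
  have hC := h.smQ.mul (h.smV i)
  rw [heat, dT_dS h.smP h.pos hz (h.smV i), dS_congr hz fun w hw => h.dT_v hw, h.phi_rate hz, mK_eq,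
    dS_sub hz ((hW'.add hA).add hB) hC, dS_add hz (hW'.add hA) hB, dS_add hz hW' hA, dS_mul hz h.smSig (h.smW i),
    dS_mul hz ((Sm.const (2 : ℝ)).mul (h.smE i)) (h.smV i), dS_mul hz h.smQ (h.smV i), dS_const_mul hz (h.smE i),
    h.dS_E hz, h.dS_sig hz, h.dS_Q hz]
  ring

theorem heat_E (hz : z ∈ slab a T) :
    heat φ (msig p φ u) (fibE k u i) z = 2 * fibE k u i z ^ 2 - 4 * fibE k u i z * dS φ (u i) z ^ 2 := by
  change heat φ (msig p φ u) (fun w => k i * Real.exp (-2 * u i w)) z = _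
  rw [heat_const_mul h.smP h.pos hz ((h.smU i).exp (-2)), heat_exp h.smP h.pos hz (h.smU i), h.heat_u hz]
  simp only [fibE]; ring

theorem heat_S (hz : z ∈ slab a T) :
    heat φ (msig p φ u) (mS p k u) z =
      ∑ j, (p j : ℝ) * (2 * fibE k u j z ^ 2 - 4 * fibE k u j z * dS φ (u j) z ^ 2) := by
  change heat φ (msig p φ u) (fun w => ∑ j, (p j : ℝ) * fibE k u j w) z = _
  rw [heat_fsum h.smP h.pos hz fun j _ => (Sm.const _).mul (h.smE j)]
  exact sum_congr rfl fun j _ => by rw [heat_const_mul h.smP h.pos hz (h.smE j), h.heat_E hz]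

theorem heat_Q (hz : z ∈ slab a T) :
    heat φ (msig p φ u) (mQ p φ u) z =
      4 * (∑ j, (p j : ℝ) * (fibE k u j z * (dS φ (u j) z * dS φ (u j) z))) -
        2 * mQ p φ u z * mQ p φ u z -
        2 * (∑ j, (p j : ℝ) * (dS φ (dS φ (u j)) z * dS φ (dS φ (u j)) z)) := by
  have e : ∀ j, heat φ (msig p φ u) (fun w => (p j : ℝ) * (dS φ (u j) w * dS φ (u j) w)) z =
      4 * ((p j : ℝ) * (fibE k u j z * (dS φ (u j) z * dS φ (u j) z))) -
        2 * mQ p φ u z * ((p j : ℝ) * (dS φ (u j) z * dS φ (u j) z)) -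
        2 * ((p j : ℝ) * (dS φ (dS φ (u j)) z * dS φ (dS φ (u j)) z)) := fun j => by
    rw [heat_const_mul h.smP h.pos hz (h.smVV j), h.heat_vv hz]; ring
  refine (heat_fsum h.smP h.pos hz fun j _ => (Sm.const _).mul (h.smVV j)).trans ?_
  simp only [e, sum_sub_distrib, ← mul_sum]
  rfl

theorem heat_sig (hz : z ∈ slab a T) :
    heat φ (msig p φ u) (msig p φ u) z =
      2 * (∑ j, (p j : ℝ) * (fibE k u j z * dS φ (u j) z)) - msig p φ u z * mQ p φ u z := by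
  have e : ∀ j, heat φ (msig p φ u) (fun w => (p j : ℝ) * dS φ (u j) w) z =
      2 * ((p j : ℝ) * (fibE k u j z * dS φ (u j) z)) - mQ p φ u z * ((p j : ℝ) * dS φ (u j) z) := fun j => by
    rw [heat_const_mul h.smP h.pos hz (h.smV j), h.heat_v hz]; ring
  refine (heat_fsum h.smP h.pos hz fun j _ => (Sm.const _).mul (h.smV j)).trans ?_
  simp only [e, sum_sub_distrib, ← mul_sum]
  rw [mul_comm (mQ p φ u z)]; rfl

theorem heat_K (hz : z ∈ slab a T) :
    heat φ (msig p φ u) (mK p φ u) z =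
      -2 * mQ p φ u z * (∑ j, (p j : ℝ) * dS φ (dS φ (u j)) z) -
        2 * msig p φ u z * (∑ j, (p j : ℝ) * (dS φ (u j) z * dS φ (dS φ (u j)) z)) +
        2 * (∑ j, (p j : ℝ) * (fibE k u j z * dS φ (dS φ (u j)) z)) - 2 * mQ p φ u z * mQ p φ u z -
        2 * (∑ j, (p j : ℝ) * (dS φ (dS φ (u j)) z * dS φ (dS φ (u j)) z)) := by
  obtain ⟨D, hD⟩ : ∃ D, (∑ j, (p j : ℝ) * (dS φ (u j) z * dS φ (dS φ (u j)) z)) = D := ⟨_, rfl⟩
  have e : ∀ j, heat φ (msig p φ u)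
      (fun w => (p j : ℝ) * (dS φ (dS φ (u j)) w + dS φ (u j) w * dS φ (u j) w)) z =
      -2 * mQ p φ u z * ((p j : ℝ) * dS φ (dS φ (u j)) z) - 2 * D * ((p j : ℝ) * dS φ (u j) z) +
        2 * ((p j : ℝ) * (fibE k u j z * dS φ (dS φ (u j)) z)) -
        2 * mQ p φ u z * ((p j : ℝ) * (dS φ (u j) z * dS φ (u j) z)) -
        2 * ((p j : ℝ) * (dS φ (dS φ (u j)) z * dS φ (dS φ (u j)) z)) := fun j => by
    rw [heat_const_mul h.smP h.pos hz ((h.smW j).add (h.smVV j)),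
      heat_add h.smP h.pos hz (h.smW j) (h.smVV j), h.heat_w hz, h.heat_vv hz, hD]
    ring
  refine (heat_fsum h.smP h.pos hz fun j _ => (Sm.const _).mul ((h.smW j).add (h.smVV j))).trans ?_
  simp only [e, sum_sub_distrib, sum_add_distrib, ← mul_sum, hD]
  change _ - 2 * D * msig p φ u z + _ - 2 * mQ p φ u z * mQ p φ u z - _ = _
  ring

theorem smR : Sm a T (mR p k φ u) :=
  ((h.smS.add h.smQ).sub (h.smSig.mul h.smSig)).sub ((Sm.const _).mul h.smK)

/-- The scalar curvature evolves by twice the squared Ricci curvature. -/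
theorem heat_R (hz : z ∈ slab a T) :
    heat φ (msig p φ u) (mR p k φ u) z =
      2 * (∑ j, (p j : ℝ) *
        (fibE k u j z - dS φ (dS φ (u j)) z - msig p φ u z * dS φ (u j) z) ^ 2) +
      2 * (mK p φ u z * mK p φ u z) := by
  have hss := h.smSig.mul h.smSig
  unfold mR
  rw [heat_sub h.smP h.pos hz ((h.smS.add h.smQ).sub hss) ((Sm.const _).mul h.smK),
    heat_sub h.smP h.pos hz (h.smS.add h.smQ) hss, heat_add h.smP h.pos hz h.smS h.smQ,
    heat_const_mul h.smP h.pos hz h.smK, heat_mul h.smP h.pos hz h.smSig h.smSig,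
    h.heat_K hz, h.heat_S hz, h.heat_Q hz, h.heat_sig hz, h.dS_sig hz, mK_eq,
    ricci_sq Finset.univ (fun j => (p j : ℝ)) (fun j => fibE k u j z) (fun j => dS φ (u j) z)
      (fun j => dS φ (dS φ (u j)) z) (Q := mQ p φ u z) (σ := msig p φ u z) rfl]
  ring

end IsWarpEqs

end

end Vale.Agent.P244
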