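import Mathlib
import Vale.Agent.P244.Defs
import Vale.Agent.P244.Calculus
import Vale.Agent.P244.Multi.Defs
import Vale.Agent.P244.Multi.Evolution
import Vale.Agent.P244.Cap.Defs
import Vale.Agent.P244.Cap.Evolution

/-!
# P244: the maximum principle on a flow with poles

Adding a small multiple of the logarithm of the round radius, which is a supersolution tending to `-∞` at
the poles, confines the maximum to the open part.
-/

open Set Filter Finset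
open scoped Topology

namespace Vale.Agent.P244

noncomputable section

variable {a T : ℝ} {φ f : ℝ × ℝ → ℝ}

/-- The maximum principle for a function tending to `-∞` at both ends. -/
theorem max_principle_open {σ : ℝ × ℝ → ℝ} (hφ : Sm a T φ) (hpos : ∀ w ∈ slab a T, 0 < φ w) (hf : Sm a T f)
    {t₀ M : ℝ} (ht₀ : t₀ ∈ Ioo a T)
    (hends : ∀ t₁ < T, ∃ r : ℝ, ∀ x, ∀ t ∈ Icc t₀ t₁, r ≤ |x| → f (x, t) ≤ M) (hinit : ∀ x, f (x, t₀) ≤ M)
    (hcrit : ∀ w ∈ slab a T, t₀ < w.2 → M < f w → heat φ σ f w < 0) :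
    ∀ x, ∀ t ∈ Ico t₀ T, f (x, t) ≤ M := by
  intro x t ht
  by_contra hlt
  rw [not_le] at hlt
  obtain ⟨r₀, hr₀⟩ := hends t ht.2
  obtain ⟨r, hr⟩ : ∃ r, max |r₀| |x| = r := ⟨_, rfl⟩
  have hr0 : 0 ≤ r := hr ▸ (abs_nonneg x).trans (le_max_right _ _)
  have hsub : Icc (-r) r ×ˢ Icc t₀ t ⊆ slab a T := fun w hw =>
    ⟨Set.mem_univ _, ht₀.1.trans_le hw.2.1, lt_of_le_of_lt hw.2.2 ht.2⟩
  obtain ⟨⟨y, s⟩, ⟨-, hs⟩, hmax⟩ := (isCompact_Icc.prod isCompact_Icc).exists_isMaxOn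
    ((Set.nonempty_Icc.2 (by linarith : -r ≤ r)).prod (Set.nonempty_Icc.2 ht.1)) (hf.cont.mono hsub)
  have hxr : x ∈ Icc (-r) r := abs_le.1 (hr ▸ le_max_right _ _)
  have hbig : M < f (y, s) := hlt.trans_le (hmax ⟨hxr, right_mem_Icc.2 ht.1⟩)
  have hall : ∀ x', ∀ s' ∈ Icc t₀ t, f (x', s') ≤ f (y, s) := by
    intro x' s' hs'
    rcases le_total |x'| r with h | h
    · exact hmax ⟨abs_le.1 h, hs'⟩
    · exact (hr₀ x' s' hs' (le_trans (le_trans (le_abs_self r₀) (hr ▸ le_max_left _ _)) h)).trans hbig.le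
  have hw : (y, s) ∈ slab a T := ⟨Set.mem_univ _, ht₀.1.trans_le hs.1, lt_of_le_of_lt hs.2 ht.2⟩
  have hs0 : t₀ < s := by
    refine lt_of_le_of_ne hs.1 fun e => ?_
    have := hinit y
    rw [e] at this; linarith
  have hloc : IsLocalMax (fun y' => f (y', s)) y := Eventually.of_forall fun y' => hall y' s hs
  have hmem : ∀ y' : ℝ, (y', s) ∈ slab a T := fun y' => ⟨Set.mem_univ _, hw.2⟩
  obtain ⟨h1, h2⟩ := second_deriv_nonpos (fun y' => hasDerivAt_slice_x hf (hmem y'))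
    (hasDerivAt_slice_x hf.dX hw) hloc
  have hD : dS φ f (y, s) = 0 := by rw [dS, h1, zero_div]
  have hDD : dS φ (dS φ f) (y, s) ≤ 0 := by
    have e : HasDerivAt (fun y' => dS φ f (y', s)) (dX (dX f) (y, s) / φ (y, s)) y := by
      refine ((hasDerivAt_slice_x hf.dX hw).div (hasDerivAt_slice_x hφ hw) (hpos _ hw).ne').congr_deriv ?_
      rw [h1]; field_simp [(hpos _ hw).ne']; ring
    rw [dS, (hasDerivAt_slice_x (Sm.dS hφ hpos hf) hw).unique e]
    exact div_nonpos_of_nonpos_of_nonneg (div_nonpos_of_nonpos_of_nonneg h2 (hpos _ hw).le) (hpos _ hw).le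
  have hneg := hcrit (y, s) hw hs0 hbig
  have hdt : dT f (y, s) < 0 := by rw [heat, hD, mul_zero, sub_zero] at hneg; linarith
  have hge : 0 ≤ dT f (y, s) := by
    have hd := (hasDerivAt_slice_t hf hw).hasDerivWithinAt (s := Iio s)
    rw [hasDerivWithinAt_iff_tendsto_slope' self_notMem_Iio] at hd
    refine ge_of_tendsto hd ?_
    filter_upwards [Ioo_mem_nhdsLT hs0] with r' hr'
    rw [slope_def_field]
    exact div_nonneg_of_nonpos (by linarith [hall y r' ⟨hr'.1.le, hr'.2.le.trans hs.2⟩]) (by linarith [hr'.2])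
  linarith

theorem exists_heat_sqrt {σ : ℝ × ℝ → ℝ} (hφ : Sm a T φ) (hpos : ∀ w ∈ slab a T, 0 < φ w) (hf : Sm a T f) :
    Sm a T (fun z => Real.sqrt (1 + f z * f z)) ∧ ∀ z ∈ slab a T,
      Real.sqrt (1 + f z * f z) * heat φ σ (fun z => Real.sqrt (1 + f z * f z)) z ≤ f z * heat φ σ f z := by
  have hp : ∀ z, 0 < 1 + f z * f z := fun z => by linarith [mul_self_nonneg (f z)]
  have h1 : Sm a T fun z => 1 + f z * f z := (Sm.const 1).add (hf.mul hf)
  have hg : Sm a T fun z => Real.sqrt (1 + f z * f z) := fun n => (h1 n).sqrt fun z _ => (hp z).ne'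
  refine ⟨hg, fun z hz => ?_⟩
  have e : (fun z => Real.sqrt (1 + f z * f z) * Real.sqrt (1 + f z * f z)) = fun z => 1 + f z * f z :=
    funext fun w => Real.mul_self_sqrt (hp w).le
  have e0 : heat φ σ (fun _ => (1 : ℝ)) z = 0 ∧ dS φ (fun _ : ℝ × ℝ => (1 : ℝ)) z = 0 := by
    have : dS φ (fun _ : ℝ × ℝ => (1 : ℝ)) = fun _ => 0 := funext fun z => by simp [dS, dX]
    exact ⟨by rw [heat, this]; simp [dS, dX, dT], by rw [this]⟩
  have hH := heat_mul (σ := σ) hφ hpos hz hg hg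
  rw [e, heat_add hφ hpos hz (Sm.const 1) (hf.mul hf), heat_mul hφ hpos hz hf hf, e0.1] at hH
  have hS := dS_mul (φ := φ) hz hg hg
  rw [e, dS_add hz (Sm.const 1) (hf.mul hf), dS_mul hz hf hf, e0.2] at hS
  obtain ⟨g, hgd⟩ : ∃ g, Real.sqrt (1 + f z * f z) = g := ⟨_, rfl⟩
  obtain ⟨g', hg'⟩ : ∃ g', dS φ (fun z => Real.sqrt (1 + f z * f z)) z = g' := ⟨_, rfl⟩
  simp only [hgd, hg'] at hH hS
  rw [hgd]
  have hgg : g * g = 1 + f z * f z := hgd ▸ Real.mul_self_sqrt (hp z).le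
  have h2 : g' * g' ≤ dS φ f z * dS φ f z := by
    refine le_of_mul_le_mul_left ?_ (hp z)
    have : g * g * (g' * g') = f z * f z * (dS φ f z * dS φ f z) := by
      rw [show g * g * (g' * g') = (g * g') * (g * g') by ring, show g * g' = f z * dS φ f z by linarith]; ring
    rw [← hgg]; rw [this]
    exact mul_le_mul_of_nonneg_right (by linarith) (mul_self_nonneg _)
  linarith

variable {m : ℕ} {p : Fin (m + 1) → ℕ} {k : Fin (m + 1) → ℝ} {u : Fin (m + 1) → ℝ × ℝ → ℝ}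

/-- A subsolution bounded on compact time intervals is bounded up to the final time. -/
theorem IsCapFlow.sub_bound (h : IsCapFlow p k a T φ u) (hk : 0 ≤ k 0) {t₀ : ℝ} (ht₀ : t₀ ∈ Ioo a T)
    (hf : Sm a T f) (hfb : ∀ t₁ < T, ∃ C, ∀ x, ∀ t ∈ Icc t₀ t₁, f (x, t) ≤ C) {N : ℝ}
    (hheat : ∀ w ∈ slab a T, t₀ ≤ w.2 → heat φ (msig p φ u) f w ≤ N) :
    ∃ M, ∀ z ∈ slab a T, t₀ ≤ z.2 → f z ≤ M := by
  obtain ⟨C₀, hC₀⟩ := hfb t₀ ht₀.2
  obtain ⟨U, hU⟩ := h.bounded t₀ t₀ ht₀.1 ht₀.2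
  have hsnd : Sm a T fun w : ℝ × ℝ => w.2 := fun n => contDiff_snd.contDiffOn
  refine ⟨C₀ - (|N| + 1) * t₀ + (|N| + 1) * T, fun z hz hz' => le_of_forall_pos_le_add fun η hη => ?_⟩
  obtain ⟨ε, hε, hεη⟩ : ∃ ε, 0 < ε ∧ ε * (|u 0 z| + |Real.log U|) ≤ η := by
    refine ⟨η / (|u 0 z| + |Real.log U| + 1), by positivity, ?_⟩
    rw [div_mul_eq_mul_div, div_le_iff₀ (by positivity)]
    exact mul_le_mul_of_nonneg_left (by linarith) hη.le
  have hg := (hf.sub ((Sm.const (|N| + 1)).mul hsnd)).add ((Sm.const ε).mul (h.eqs.smU 0))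
  have hU0 : ∀ x, u 0 (x, t₀) ≤ |Real.log U| := fun x => by
    have h1 := (hU x t₀ ⟨le_rfl, le_rfl⟩).1
    have h2 := Real.log_le_log (Real.exp_pos _) h1
    rw [Real.log_exp] at h2
    exact h2.trans (le_abs_self _)
  have := max_principle_open (σ := msig p φ u) h.eqs.smP h.pos hg
    (M := C₀ - (|N| + 1) * t₀ + ε * |Real.log U|) ht₀ (fun t₁ ht₁ => ?_) (fun x => ?_)
    (fun w hw hlt _ => ?_) z.1 z.2 ⟨hz', hz.2.2⟩
  · simp only [Prod.mk.eta] at this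
    have h1 := mul_le_mul_of_nonneg_left hz.2.2.le (by positivity : 0 ≤ |N| + 1)
    linarith [mul_le_mul_of_nonneg_left (neg_abs_le (u 0 z)) hε.le]
  · obtain ⟨C₁, hC₁⟩ := hfb t₁ ht₁
    obtain ⟨r, hr⟩ := h.poles t₀ t₁ ht₀.1 ht₁
      (Real.exp ((C₀ - C₁ + ε * |Real.log U|) / ε)) (Real.exp_pos _)
    refine ⟨r, fun x t ht hx => ?_⟩
    have h1 := Real.exp_lt_exp.1 (hr x t ht hx)
    rw [lt_div_iff₀ hε] at h1
    linarith [hC₁ x t ht, mul_le_mul_of_nonneg_left ht.1 (by positivity : 0 ≤ |N| + 1)]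
  · linarith [hC₀ x t₀ ⟨le_rfl, le_rfl⟩, mul_le_mul_of_nonneg_left (hU0 x) hε.le]
  · rw [heat_add h.eqs.smP h.pos hw (hf.sub ((Sm.const _).mul hsnd)) ((Sm.const ε).mul (h.eqs.smU 0)),
      heat_sub h.eqs.smP h.pos hw hf ((Sm.const _).mul hsnd), heat_const_mul h.eqs.smP h.pos hw hsnd, heat_snd,
      heat_const_mul h.eqs.smP h.pos hw (h.eqs.smU 0), h.eqs.heat_u hw]
    linarith [hheat w hw hlt.le, le_abs_self N,
      mul_nonneg hε.le (show 0 ≤ fibE k u 0 w from mul_nonneg hk (Real.exp_pos _).le)]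

end

end Vale.Agent.P244
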