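import Mathlib
import Vale.Agent.P244.Defs
import Vale.Agent.P244.Calculus
import Vale.Agent.P244.Multi.Defs
import Vale.Agent.P244.Multi.Evolution
import Vale.Agent.P244.Cap.Defs
import Vale.Agent.P244.Cap.Algebra
import Vale.Agent.P244.Cap.Evolution
import Vale.Agent.P244.Cap.Bound

/-!
# P244: curvature bounds for a warped flow with poles
-/

open Set Finset

namespace Vale.Agent.P244

noncomputable section

variable {m : ℕ} (p : Fin (m + 1) → ℕ) (k : Fin (m + 1) → ℝ) (φ : ℝ × ℝ → ℝ)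
  (u : Fin (m + 1) → ℝ × ℝ → ℝ)

/-- The squared gradient of the warping functions of the other fibres. -/
def capQ : ℝ × ℝ → ℝ := fun z => ∑ i : Fin m, (p i.succ : ℝ) * (dS φ (u i.succ) z * dS φ (u i.succ) z)

/-- The squared Hessian of the warping functions of the other fibres. -/
def capH : ℝ × ℝ → ℝ := fun z => ∑ i : Fin m, (p i.succ : ℝ) *
  (dS φ (dS φ (u i.succ)) z * dS φ (dS φ (u i.succ)) z +
    (p 0 : ℝ) * (dS φ (u 0) z * dS φ (u i.succ) z * (dS φ (u 0) z * dS φ (u i.succ) z)))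

/-- The difference of the spherical and the radial curvature. -/
def capD : ℝ × ℝ → ℝ := fun z => fibE k u 0 z + ((p 0 : ℝ) - 1) * dS φ (dS φ (u 0)) z

/-- The test function. -/
def capF (L N : ℝ) : ℝ × ℝ → ℝ := fun z =>
  Real.sqrt (1 + capD p k φ u z * capD p k φ u z) + capH p φ u z * (L + capQ p φ u z) - N * mR p k φ u z

variable {p k φ u}

theorem mQ_split (z : ℝ × ℝ) :
    mQ p φ u z = (p 0 : ℝ) * (dS φ (u 0) z * dS φ (u 0) z) + capQ p φ u z := by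
  simp only [mQ, capQ, Fin.sum_univ_succ]

theorem capQ_nonneg (z : ℝ × ℝ) : 0 ≤ capQ p φ u z :=
  sum_nonneg fun i _ => mul_nonneg (p i.succ).cast_nonneg (mul_self_nonneg _)

theorem capH_nonneg (z : ℝ × ℝ) : 0 ≤ capH p φ u z :=
  sum_nonneg fun i _ => mul_nonneg (p i.succ).cast_nonneg
    (add_nonneg (mul_self_nonneg _) (mul_nonneg (p 0).cast_nonneg (mul_self_nonneg _)))

theorem mK_split (z : ℝ × ℝ) :
    mK p φ u z = (p 0 : ℝ) * (dS φ (dS φ (u 0)) z + dS φ (u 0) z * dS φ (u 0) z) +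
      (∑ i : Fin m, (p i.succ : ℝ) * dS φ (dS φ (u i.succ)) z) + capQ p φ u z := by
  simp only [mK, capQ, Fin.sum_univ_succ, mul_add, sum_add_distrib]; ring

theorem mR_split (z : ℝ × ℝ) :
    mR p k φ u z = (p 0 : ℝ) * (fibE k u 0 z - ((p 0 : ℝ) - 1) * (dS φ (u 0) z * dS φ (u 0) z) -
        2 * (dS φ (dS φ (u 0)) z + dS φ (u 0) z * dS φ (u 0) z)) +
      (∑ i : Fin m, (p i.succ : ℝ) * fibE k u i.succ z) -
      2 * (∑ i : Fin m, (p i.succ : ℝ) * dS φ (dS φ (u i.succ)) z) -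
      2 * ((p 0 : ℝ) * (∑ i : Fin m, (p i.succ : ℝ) * (dS φ (u 0) z * dS φ (u i.succ) z))) -
      capQ p φ u z -
      (∑ i : Fin m, (p i.succ : ℝ) * dS φ (u i.succ) z) * (∑ i : Fin m, (p i.succ : ℝ) * dS φ (u i.succ) z) := by
  have e : (∑ i : Fin m, (p i.succ : ℝ) * (dS φ (u 0) z * dS φ (u i.succ) z)) =
      dS φ (u 0) z * ∑ i : Fin m, (p i.succ : ℝ) * dS φ (u i.succ) z := by
    rw [mul_sum]; exact sum_congr rfl fun i _ => by ring
  rw [e, mR, mK_split, mQ_split]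
  simp only [mS, msig, Fin.sum_univ_succ]
  ring

theorem sum_bound {ι : Type*} (s : Finset ι) (P f : ι → ℝ) (hP : ∀ i ∈ s, 0 ≤ P i) {C : ℝ}
    (hf : ∀ i ∈ s, |f i| ≤ C) : |∑ i ∈ s, P i * f i| ≤ (∑ i ∈ s, P i) * C := by
  refine (abs_sum_le_sum_abs _ _).trans ?_
  rw [sum_mul]
  exact sum_le_sum fun i hi => by
    rw [abs_mul, abs_of_nonneg (hP i hi)]
    exact mul_le_mul_of_nonneg_left (hf i hi) (hP i hi)

theorem abs_le_scaled {P M y s : ℝ} (hP : 0 ≤ P) (hM : 0 ≤ M) (hPM : P ≤ M * M) (hs : 0 ≤ s)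
    (h : y * y ≤ P * (s * s)) : |y| ≤ M * s :=
  abs_le_of_sq_le_sq (by nlinarith [mul_le_mul_of_nonneg_right hPM (mul_self_nonneg s)]) (mul_nonneg hM hs)

namespace IsCapFlow

variable {a T : ℝ} (h : IsCapFlow p k a T φ u) {z : ℝ × ℝ}
include h

theorem smCapQ : Sm a T (capQ p φ u) := Sm.sum fun i _ => (Sm.const _).mul (h.eqs.smVV i.succ)

theorem smTerm (i : Fin m) : Sm a T fun z => dS φ (dS φ (u i.succ)) z * dS φ (dS φ (u i.succ)) z +
    (p 0 : ℝ) * (dS φ (u 0) z * dS φ (u i.succ) z * (dS φ (u 0) z * dS φ (u i.succ) z)) :=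
  ((h.eqs.smW i.succ).mul (h.eqs.smW i.succ)).add ((Sm.const _).mul
    (((h.eqs.smV 0).mul (h.eqs.smV i.succ)).mul ((h.eqs.smV 0).mul (h.eqs.smV i.succ))))

theorem smCapH : Sm a T (capH p φ u) := Sm.sum fun i _ => (Sm.const _).mul (h.smTerm i)

theorem smCapD : Sm a T (capD p k φ u) := (h.eqs.smE 0).add ((Sm.const _).mul (h.eqs.smW 0))

theorem smCapF (L N : ℝ) : Sm a T (capF p k φ u L N) :=
  ((exists_heat_sqrt (σ := msig p φ u) h.eqs.smP h.pos h.smCapD).1.add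
    (h.smCapH.mul ((Sm.const L).add h.smCapQ))).sub ((Sm.const N).mul h.eqs.smR)

theorem dS_capQ (hz : z ∈ slab a T) :
    dS φ (capQ p φ u) z =
      2 * ∑ i : Fin m, (p i.succ : ℝ) * (dS φ (u i.succ) z * dS φ (dS φ (u i.succ)) z) := by
  refine (dS_fsum hz fun i _ => (Sm.const _).mul (h.eqs.smVV i.succ)).trans ?_
  rw [mul_sum]
  exact sum_congr rfl fun i _ => by
    rw [dS_const_mul hz (h.eqs.smVV i.succ), dS_mul hz (h.eqs.smV i.succ) (h.eqs.smV i.succ)]; ring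

theorem heat_capQ (hk : ∀ i : Fin m, k i.succ ≤ 0) (hz : z ∈ slab a T) :
    heat φ (msig p φ u) (capQ p φ u) z ≤ -2 * capH p φ u z := by
  refine (heat_fsum h.eqs.smP h.pos hz fun i _ => (Sm.const _).mul (h.eqs.smVV i.succ)).trans_le ?_
  rw [capH, mul_sum]
  refine sum_le_sum fun i _ => ?_
  rw [heat_const_mul h.eqs.smP h.pos hz (h.eqs.smVV i.succ), h.eqs.heat_vv hz, mQ_split]
  have hE : fibE k u i.succ z ≤ 0 := mul_nonpos_of_nonpos_of_nonneg (hk i) (Real.exp_pos _).le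
  have hp := (p i.succ).cast_nonneg (α := ℝ)
  have h1 := mul_nonpos_of_nonneg_of_nonpos (mul_nonneg hp (mul_self_nonneg (dS φ (u i.succ) z)))
    (by linarith [capQ_nonneg (p := p) (φ := φ) (u := u) z] : 2 * fibE k u i.succ z - capQ p φ u z ≤ 0)
  linarith

theorem heat_capD (hz : z ∈ slab a T) :
    heat φ (msig p φ u) (capD p k φ u) z =
      -(2 * ((p 0 : ℝ) + 1)) * (dS φ (u 0) z * dS φ (u 0) z) * capD p k φ u z +
        (2 * (fibE k u 0 z - ((p 0 : ℝ) - 1) * (dS φ (u 0) z * dS φ (u 0) z)) ^ 2 +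
          2 * ((p 0 : ℝ) - 1) * (dS φ (dS φ (u 0)) z + dS φ (u 0) z * dS φ (u 0) z) *
            (fibE k u 0 z - ((p 0 : ℝ) - 1) * (dS φ (u 0) z * dS φ (u 0) z)) +
          2 * ((p 0 : ℝ) - 1) * (capQ p φ u z * (dS φ (u 0) z * dS φ (u 0) z) -
            capQ p φ u z * (dS φ (dS φ (u 0)) z + dS φ (u 0) z * dS φ (u 0) z) -
            dS φ (u 0) z * (∑ i : Fin m, (p i.succ : ℝ) *
              (dS φ (u i.succ) z * dS φ (dS φ (u i.succ)) z)))) := by
  unfold capD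
  rw [← delta_split, heat_add h.eqs.smP h.pos hz (h.eqs.smE 0) ((Sm.const _).mul (h.eqs.smW 0)),
    heat_const_mul h.eqs.smP h.pos hz (h.eqs.smW 0), h.eqs.heat_E hz, h.eqs.heat_w hz, mQ_split,
    Fin.sum_univ_succ]

/-- The test function is a subsolution up to a constant. -/
theorem exists_test (hp : ∀ i, 1 ≤ p i) (hk : ∀ i : Fin m, k i.succ ≤ 0) {t₀ M : ℝ} (hM : 1 ≤ M)
    (hPt : (∑ i : Fin m, (p i.succ : ℝ)) ≤ M)
    (hb : ∀ z ∈ slab a T, t₀ ≤ z.2 → |mR p k φ u z| ≤ M ∧ capQ p φ u z ≤ M ∧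
      |∑ i : Fin m, (p i.succ : ℝ) * fibE k u i.succ z| ≤ M ∧
      (∑ i : Fin m, (p i.succ : ℝ) * dS φ (u i.succ) z) *
        (∑ i : Fin m, (p i.succ : ℝ) * dS φ (u i.succ) z) ≤ M ∧
      ∀ i : Fin m, dS φ (u i.succ) z * dS φ (u i.succ) z ≤ M ∧ |fibE k u i.succ z| ≤ M) :
    ∃ N C, 0 ≤ N ∧ ∀ z ∈ slab a T, t₀ ≤ z.2 →
      heat φ (msig p φ u) (capF p k φ u (16 * M) N) z ≤ C := by
  obtain ⟨P, hP⟩ : ∃ P, (p 0 : ℝ) = P := ⟨_, rfl⟩
  have hP1 : 1 ≤ P := hP ▸ by exact_mod_cast hp 0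
  have hP0 : 0 ≤ P := by linarith
  obtain ⟨N, C, hN, hNC⟩ := cap_absorb (A := 1200 * P ^ 3 * M ^ 4) (by positivity)
  refine ⟨N, C, hN, fun z hz hz' => ?_⟩
  obtain ⟨hR, hq, hS, hσ, hi⟩ := hb z hz hz'
  have hq0 := capQ_nonneg (p := p) (φ := φ) (u := u) z
  have hH0 := capH_nonneg (p := p) (φ := φ) (u := u) z
  obtain ⟨s, hs⟩ : ∃ s, Real.sqrt (capH p φ u z) = s := ⟨_, rfl⟩
  have hs0 : 0 ≤ s := hs ▸ Real.sqrt_nonneg _
  have hss : s * s = capH p φ u z := hs ▸ Real.mul_self_sqrt hH0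
  have hp' : ∀ i : Fin m, (0 : ℝ) ≤ p i.succ := fun i => (p i.succ).cast_nonneg
  have hP2 : 0 ≤ ∑ i : Fin m, (p i.succ : ℝ) := sum_nonneg fun i _ => hp' i
  -- the squared Hessian controls the linear sums
  have hH1 : (∑ i : Fin m, (p i.succ : ℝ) * (dS φ (dS φ (u i.succ)) z * dS φ (dS φ (u i.succ)) z)) ≤ s * s := by
    rw [hss]; exact sum_le_sum fun i _ => mul_le_mul_of_nonneg_left
      (le_add_of_nonneg_right (mul_nonneg (p 0).cast_nonneg (mul_self_nonneg _))) (hp' i)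
  have hH2 : P * (∑ i : Fin m, (p i.succ : ℝ) *
      (dS φ (u 0) z * dS φ (u i.succ) z * (dS φ (u 0) z * dS φ (u i.succ) z))) ≤ s * s := by
    rw [hss, mul_sum]; refine sum_le_sum fun i _ => ?_
    rw [← hP]
    linarith [mul_nonneg (hp' i) (mul_self_nonneg (dS φ (dS φ (u i.succ)) z))]
  have hB2 : 0 ≤ ∑ i : Fin m, (p i.succ : ℝ) *
      (dS φ (u 0) z * dS φ (u i.succ) z * (dS φ (u 0) z * dS φ (u i.succ) z)) :=
    sum_nonneg fun i _ => mul_nonneg (hp' i) (mul_self_nonneg _)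
  have hqX : capQ p φ u z * (dS φ (u 0) z * dS φ (u 0) z) ≤ s * s := by
    refine le_trans ?_ ((le_mul_of_one_le_left hB2 hP1).trans hH2)
    rw [capQ, sum_mul]; exact le_of_eq (sum_congr rfl fun i _ => by ring)
  have hcs := weighted_cs Finset.univ (fun i : Fin m => (p i.succ : ℝ)) (fun _ => (1 : ℝ))
    (fun i => dS φ (dS φ (u i.succ)) z) (fun i _ => hp' i)
  have hcsB := weighted_cs Finset.univ (fun i : Fin m => (p i.succ : ℝ)) (fun _ => (1 : ℝ))
    (fun i => dS φ (u 0) z * dS φ (u i.succ) z) (fun i _ => hp' i)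
  simp only [one_mul, mul_one] at hcs hcsB
  have hc2 := weighted_cs Finset.univ (fun i : Fin m => (p i.succ : ℝ)) (fun i => dS φ (u i.succ) z)
    (fun i => dS φ (dS φ (u i.succ)) z) (fun i _ => hp' i)
  obtain ⟨W, hW⟩ : ∃ W, (∑ i : Fin m, (p i.succ : ℝ) * dS φ (dS φ (u i.succ)) z) = W := ⟨_, rfl⟩
  obtain ⟨Bs, hBs⟩ : ∃ Bs, (∑ i : Fin m, (p i.succ : ℝ) * (dS φ (u 0) z * dS φ (u i.succ) z)) = Bs := ⟨_, rfl⟩
  obtain ⟨c, hc⟩ : ∃ c, (∑ i : Fin m, (p i.succ : ℝ) *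
      (dS φ (u i.succ) z * dS φ (dS φ (u i.succ)) z)) = c := ⟨_, rfl⟩
  rw [hW] at hcs
  rw [hBs] at hcsB
  rw [hc] at hc2
  have hMM : M ≤ M * M := le_mul_of_one_le_left (by linarith) hM
  have hWb : |W| ≤ M * s :=
    abs_le_scaled hP2 (by linarith) (hPt.trans hMM) hs0 (hcs.trans (mul_le_mul_of_nonneg_left hH1 hP2))
  have hBb : |Bs| ≤ M * s :=
    abs_le_scaled hP2 (by linarith) (hPt.trans hMM) hs0
      (hcsB.trans (mul_le_mul_of_nonneg_left ((le_mul_of_one_le_left hB2 hP1).trans hH2) hP2))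
  have hc2' : c * c ≤ M * (s * s) :=
    hc2.trans (mul_le_mul hq hH1 (sum_nonneg fun i _ => mul_nonneg (hp' i) (mul_self_nonneg _)) (by linarith))
  have hc3 : |dS φ (u 0) z * c| ≤ s * s := by
    refine abs_le_of_sq_le_sq ?_ (mul_self_nonneg s)
    have h1 := mul_le_mul_of_nonneg_left hc2 (mul_self_nonneg (dS φ (u 0) z))
    have h2 := mul_le_mul hqX hH1 (sum_nonneg fun i _ => mul_nonneg (hp' i) (mul_self_nonneg _)) (mul_self_nonneg s)
    simp only [sq]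
    linarith [show (∑ i : Fin m, (p i.succ : ℝ) * (dS φ (u i.succ) z * dS φ (u i.succ) z)) = capQ p φ u z from rfl,
      show dS φ (u 0) z * dS φ (u 0) z * ((∑ i : Fin m, (p i.succ : ℝ) * (dS φ (u i.succ) z * dS φ (u i.succ) z)) *
        (∑ i : Fin m, (p i.succ : ℝ) * (dS φ (dS φ (u i.succ)) z * dS φ (dS φ (u i.succ)) z))) =
        capQ p φ u z * (dS φ (u 0) z * dS φ (u 0) z) *
          (∑ i : Fin m, (p i.succ : ℝ) * (dS φ (dS φ (u i.succ)) z * dS φ (dS φ (u i.succ)) z)) by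
        rw [capQ]; ring]
  -- the axial curvature controls the spherical ones
  obtain ⟨K, hK⟩ : ∃ K, mK p φ u z = K := ⟨_, rfl⟩
  obtain ⟨Z, hZ⟩ : ∃ Z, |K| + (1 + s) = Z := ⟨_, rfl⟩
  have hZ1 : 1 ≤ Z := by linarith [abs_nonneg K]
  have eK := hK ▸ mK_split (p := p) (φ := φ) (u := u) z
  have eR := mR_split (p := p) (k := k) (φ := φ) (u := u) z
  rw [hW, hP] at eK
  rw [hW, hBs, hP] at eR
  obtain ⟨aR, haR⟩ : ∃ aR, dS φ (dS φ (u 0)) z + dS φ (u 0) z * dS φ (u 0) z = aR := ⟨_, rfl⟩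
  obtain ⟨D, hD⟩ : ∃ D, fibE k u 0 z - (P - 1) * (dS φ (u 0) z * dS φ (u 0) z) = D := ⟨_, rfl⟩
  rw [haR] at eK eR
  rw [hD] at eR
  obtain ⟨ha, hDb⟩ := axial_bounds (σ := (∑ i : Fin m, (p i.succ : ℝ) * dS φ (u i.succ) z) *
      (∑ i : Fin m, (p i.succ : ℝ) * dS φ (u i.succ) z))
    hP1 hM hs0 hZ hWb hBb hq0 hq hR hS (mul_self_nonneg _) hσ eK eR
  have hZs : s * s ≤ Z * Z := mul_self_le_mul_self hs0 (by linarith [abs_nonneg K])
  -- the root of the spherical function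
  have hdelta : heat φ (msig p φ u) (fun w => Real.sqrt (1 + capD p k φ u w * capD p k φ u w)) z ≤
      240 * (P ^ 3 * M ^ 2) * (Z * Z) := by
    have hhd := h.heat_capD hz
    rw [hP, hc, haR, hD] at hhd
    have hX := mul_self_nonneg (dS φ (u 0) z)
    obtain ⟨rest, hrest⟩ : ∃ r, 2 * D ^ 2 + 2 * (P - 1) * aR * D + 2 * (P - 1) *
        (capQ p φ u z * (dS φ (u 0) z * dS φ (u 0) z) - capQ p φ u z * aR - dS φ (u 0) z * c) = r := ⟨_, rfl⟩
    rw [hrest] at hhd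
    have hrb : |rest| ≤ 240 * (P ^ 3 * M ^ 2) * (Z * Z) :=
      hrest ▸ rest_bound hP1 hM hZ1 ha hDb hq0 hq (mul_nonneg hq0 hX) (hqX.trans hZs) (hc3.trans hZs)
    have hgs := (exists_heat_sqrt (σ := msig p φ u) h.eqs.smP h.pos h.smCapD).2 z hz
    rw [hhd] at hgs
    obtain ⟨d, hd⟩ : ∃ d, capD p k φ u z = d := ⟨_, rfl⟩
    rw [hd] at hgs
    have h1 : 0 ≤ (P + 1) * ((dS φ (u 0) z * dS φ (u 0) z) * (d * d)) :=
      mul_nonneg (by linarith) (mul_nonneg hX (mul_self_nonneg d))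
    have h2 : |d| ≤ Real.sqrt (1 + d * d) := by
      rw [← Real.sqrt_mul_self_eq_abs]; exact Real.sqrt_le_sqrt (by linarith)
    have h3 : d * rest ≤ Real.sqrt (1 + d * d) * (240 * (P ^ 3 * M ^ 2) * (Z * Z)) := by
      refine (le_abs_self _).trans ?_
      rw [abs_mul]; exact mul_le_mul h2 hrb (abs_nonneg _) (Real.sqrt_nonneg _)
    exact le_of_mul_le_mul_left (by linarith) (Real.sqrt_pos.2 (by linarith [mul_self_nonneg d]) :
      0 < Real.sqrt (1 + d * d))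
  -- the Hessian times the gradient
  have hprod : heat φ (msig p φ u) (fun w => capH p φ u w * (16 * M + capQ p φ u w)) z ≤
      -(s * s * (s * s)) + 17 * 66 * (P ^ 3 * M ^ 4) * (Z * ((1 + s) * (1 + s))) := by
    have hL := (Sm.const (16 * M)).add h.smCapQ
    have e0 : heat φ (msig p φ u) (fun _ => 16 * M) z = 0 := by
      have : dS φ (fun _ : ℝ × ℝ => 16 * M) = fun _ => 0 := funext fun z => by simp [dS, dX]
      rw [heat, this]; simp [dS, dX, dT]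
    have e1 : dS φ (fun _ : ℝ × ℝ => 16 * M) z = 0 := by simp [dS, dX]
    rw [heat_mul h.eqs.smP h.pos hz h.smCapH hL, heat_add h.eqs.smP h.pos hz (Sm.const (16 * M)) h.smCapQ, e0,
      dS_add hz (Sm.const (16 * M)) h.smCapQ, e1, zero_add, zero_add, h.dS_capQ hz, hc]
    have hQ' := mul_le_mul_of_nonneg_left (h.heat_capQ hk hz) hH0
    obtain ⟨Γ, hΓ⟩ : ∃ Γ, (∑ i : Fin m, (p i.succ : ℝ) *
        (dS φ (dS φ (dS φ (u i.succ))) z * dS φ (dS φ (dS φ (u i.succ))) z +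
          P * (dS φ (fun w => dS φ (u 0) w * dS φ (u i.succ) w) z *
            dS φ (fun w => dS φ (u 0) w * dS φ (u i.succ) w) z))) = Γ := ⟨_, rfl⟩
    have hΓ0 : 0 ≤ Γ := hΓ ▸ sum_nonneg fun i _ => mul_nonneg (hp' i)
      (add_nonneg (mul_self_nonneg _) (mul_nonneg hP0 (mul_self_nonneg _)))
    have hterm : ∀ i : Fin m, dS φ (fun w => (p i.succ : ℝ) *
        (dS φ (dS φ (u i.succ)) w * dS φ (dS φ (u i.succ)) w +
          (p 0 : ℝ) * (dS φ (u 0) w * dS φ (u i.succ) w * (dS φ (u 0) w * dS φ (u i.succ) w)))) z =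
        (p i.succ : ℝ) * (2 * (dS φ (dS φ (u i.succ)) z * dS φ (dS φ (dS φ (u i.succ))) z) +
          P * (2 * (dS φ (u 0) z * dS φ (u i.succ) z *
            dS φ (fun w => dS φ (u 0) w * dS φ (u i.succ) w) z))) := fun i => by
      have hB := (h.eqs.smV 0).mul (h.eqs.smV i.succ)
      rw [dS_const_mul hz (h.smTerm i), dS_add hz ((h.eqs.smW i.succ).mul (h.eqs.smW i.succ))
        ((Sm.const _).mul (hB.mul hB)), dS_mul hz (h.eqs.smW i.succ) (h.eqs.smW i.succ),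
        dS_const_mul hz (hB.mul hB), dS_mul hz hB hB, hP]
      ring
    have hcross : -2 * dS φ (capH p φ u) z * (2 * c) ≤
        2 * (16 * M) * Γ + 2 / (16 * M) * ((2 * c) * (2 * c)) * capH p φ u z := by
      unfold capH
      rw [dS_fsum hz fun i _ => (Sm.const _).mul (h.smTerm i), mul_sum, sum_mul]
      rw [← hΓ, mul_sum, mul_sum, ← sum_add_distrib]
      refine sum_le_sum fun i _ => ?_
      rw [hterm, hP]
      exact le_of_eq_of_le (by ring) (cross_term (hp' i) hP0 (by linarith : 0 < 16 * M))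
    have hH' : heat φ (msig p φ u) (capH p φ u) z ≤ -2 * Γ +
        66 * (P ^ 3 * M ^ 3) * (Z * ((1 + s) * (1 + s))) := by
      refine (heat_fsum h.eqs.smP h.pos hz fun i _ => (Sm.const _).mul (h.smTerm i)).trans_le ?_
      have hterm2 : ∀ i : Fin m, heat φ (msig p φ u) (fun w => (p i.succ : ℝ) *
          (dS φ (dS φ (u i.succ)) w * dS φ (dS φ (u i.succ)) w +
            (p 0 : ℝ) * (dS φ (u 0) w * dS φ (u i.succ) w * (dS φ (u 0) w * dS φ (u i.succ) w)))) z ≤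
          -2 * ((p i.succ : ℝ) * (dS φ (dS φ (dS φ (u i.succ))) z * dS φ (dS φ (dS φ (u i.succ))) z +
            P * (dS φ (fun w => dS φ (u 0) w * dS φ (u i.succ) w) z *
              dS φ (fun w => dS φ (u 0) w * dS φ (u i.succ) w) z))) +
          (4 * P * (|D| + |aR|) + 14 * M ^ 2) * ((p i.succ : ℝ) *
            (dS φ (dS φ (u i.succ)) z * dS φ (dS φ (u i.succ)) z +
              (p 0 : ℝ) * (dS φ (u 0) z * dS φ (u i.succ) z * (dS φ (u 0) z * dS φ (u i.succ) z)))) +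
          (4 * M ^ 2 + 2 * (c * c)) * (p i.succ : ℝ) := fun i => by
        have hB := (h.eqs.smV 0).mul (h.eqs.smV i.succ)
        rw [heat_const_mul h.eqs.smP h.pos hz (h.smTerm i),
          heat_add h.eqs.smP h.pos hz ((h.eqs.smW i.succ).mul (h.eqs.smW i.succ))
            ((Sm.const _).mul (hB.mul hB)),
          heat_mul h.eqs.smP h.pos hz (h.eqs.smW i.succ) (h.eqs.smW i.succ),
          heat_const_mul h.eqs.smP h.pos hz (hB.mul hB), heat_mul h.eqs.smP h.pos hz hB hB,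
          heat_mul h.eqs.smP h.pos hz (h.eqs.smV 0) (h.eqs.smV i.succ), h.eqs.heat_v hz, h.eqs.heat_v hz,
          h.eqs.heat_w hz, Fin.sum_univ_succ, hc, hP]
        have ht := hess_term_le (E₀ := fibE k u 0 z) (x := dS φ (u 0) z) (y := dS φ (dS φ (u 0)) z)
          (E := fibE k u i.succ z) (v := dS φ (u i.succ) z) (w := dS φ (dS φ (u i.succ)) z) (c := c)
          (q := capQ p φ u z) (Q := mQ p φ u z) hP1 hM (by rw [mQ_split, hP]) hq0 (hi i).1 (hi i).2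
        rw [hD, haR] at ht
        have := mul_le_mul_of_nonneg_left ht (hp' i)
        linarith
      refine le_trans (sum_le_sum fun i _ => hterm2 i) ?_
      rw [sum_add_distrib, sum_add_distrib, ← mul_sum, ← mul_sum, ← mul_sum, hΓ,
        show (∑ i : Fin m, (p i.succ : ℝ) * (dS φ (dS φ (u i.succ)) z * dS φ (dS φ (u i.succ)) z +
          (p 0 : ℝ) * (dS φ (u 0) z * dS φ (u i.succ) z * (dS φ (u 0) z * dS φ (u i.succ) z)))) = s * s
          from hss.symm]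
      linarith [hess_coeff hP1 hM hs0 hZ1 ha hDb hc2' hP2 hPt]
    have hcr2 : 2 / (16 * M) * ((2 * c) * (2 * c)) * capH p φ u z ≤ s * s * (s * s) := by
      rw [← hss]
      refine mul_le_mul_of_nonneg_right ?_ (mul_self_nonneg s)
      rw [div_mul_eq_mul_div, div_le_iff₀ (by linarith)]
      linarith [mul_nonneg (by linarith : 0 ≤ M) (mul_self_nonneg s)]
    have hL' := mul_le_mul_of_nonneg_left hH' (by linarith : 0 ≤ 16 * M + capQ p φ u z)
    have hL2 := mul_le_mul_of_nonneg_right (by linarith : 16 * M + capQ p φ u z ≤ 17 * M)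
      (by positivity : 0 ≤ 66 * (P ^ 3 * M ^ 3) * (Z * ((1 + s) * (1 + s))))
    rw [← hss] at hQ' hcr2 hcross ⊢
    linarith [mul_nonneg hq0 hΓ0]
  -- assembling
  have hsq := (exists_heat_sqrt (σ := msig p φ u) h.eqs.smP h.pos h.smCapD).1
  have hpr := h.smCapH.mul ((Sm.const (16 * M)).add h.smCapQ)
  unfold capF
  rw [heat_sub h.eqs.smP h.pos hz (hsq.add hpr) ((Sm.const _).mul h.eqs.smR),
    heat_add h.eqs.smP h.pos hz hsq hpr, heat_const_mul h.eqs.smP h.pos hz h.eqs.smR, h.eqs.heat_R hz, hK]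
  have hnn := mul_nonneg hN (sum_nonneg fun j (_ : j ∈ Finset.univ) => mul_nonneg (p j).cast_nonneg
    (sq_nonneg (fibE k u j z - dS φ (dS φ (u j)) z - msig p φ u z * dS φ (u j) z)))
  have hfin := hNC K s hs0
  rw [hZ] at hfin
  have b1 : 240 * (P ^ 3 * M ^ 2) ≤ 1200 * P ^ 3 * M ^ 4 := by
    linarith [mul_le_mul_of_nonneg_left (pow_le_pow_right₀ hM (by norm_num) : M ^ 2 ≤ M ^ 4)
      (by positivity : 0 ≤ P ^ 3), (by positivity : 0 ≤ P ^ 3 * M ^ 4)]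
  linarith [mul_le_mul_of_nonneg_right b1 (mul_self_nonneg Z),
    mul_nonneg (by positivity : 0 ≤ P ^ 3 * M ^ 4) (by positivity : 0 ≤ Z * ((1 + s) * (1 + s)))]

end IsCapFlow

end

end Vale.Agent.P244
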