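import Mathlib
import Vale.Agent.P244.Defs
import Vale.Agent.P244.Calculus
import Vale.Agent.P244.Cap.Defs

/-!
# P244: the shrinking round three-sphere is a flow with poles
-/

open Set

namespace Vale.Agent.P244

noncomputable section

/-- The logarithm of the round radius in the coordinate with poles at infinity. -/
def sphereLog (z : ℝ × ℝ) : ℝ := Real.log (10 - 4 * z.2) / 2 - Real.log (Real.cosh z.1)

theorem isCapFlow_sphere :
    IsCapFlow (m := 0) (fun _ => 2) (fun _ => 1) 0 1 (fun z => Real.exp (sphereLog z)) (fun _ => sphereLog) := by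
  have hr : ∀ z ∈ slab 0 1, (0 : ℝ) < 10 - 4 * z.2 := fun z hz => by linarith [hz.2.2]
  have hu : ∀ n : ℕ, ContDiffOn ℝ n sphereLog (slab 0 1) := fun n =>
    (((contDiffOn_const.sub (contDiffOn_const.mul contDiff_snd.contDiffOn)).log
      fun z hz => (hr z hz).ne').div_const 2).sub
      (((Real.contDiff_cosh.comp contDiff_fst).contDiffOn).log fun z _ => (Real.cosh_pos z.1).ne')
  have hd : ∀ z ∈ slab 0 1, HasFDerivAt sphereLog
      (((-4 : ℝ) / (10 - 4 * z.2) / 2) • ContinuousLinearMap.snd ℝ ℝ ℝ -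
        (Real.sinh z.1 / Real.cosh z.1) • ContinuousLinearMap.fst ℝ ℝ ℝ) z := fun z hz => by
    have h1 := ((((hasDerivAt_id' z.2).const_mul (4 : ℝ)).const_sub 10).log (hr z hz).ne').div_const 2
    have h1' := h1.comp_hasFDerivAt (f := fun w : ℝ × ℝ => w.2) z
      (hasFDerivAt_snd (𝕜 := ℝ) (E := ℝ) (F := ℝ) (p := z))
    have h2 := (Real.hasDerivAt_cosh z.1).log (Real.cosh_pos z.1).ne'
    have h2' := h2.comp_hasFDerivAt (f := fun w : ℝ × ℝ => w.1) z
      (hasFDerivAt_fst (𝕜 := ℝ) (E := ℝ) (F := ℝ) (p := z))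
    rw [show (-4 : ℝ) = -(4 * 1) by norm_num]
    exact (h1'.sub h2').congr_of_eventuallyEq (Filter.Eventually.of_forall fun w => rfl)
  have hT : ∀ z ∈ slab 0 1, dT sphereLog z = -2 / (10 - 4 * z.2) := fun z hz => by
    simp [dT, (hd z hz).fderiv]; ring
  have hv : ∀ z ∈ slab 0 1, dS (fun z => Real.exp (sphereLog z)) sphereLog z =
      -Real.sinh z.1 * Real.exp (-(Real.log (10 - 4 * z.2) / 2)) := fun z hz => by
    simp only [dS, dX, (hd z hz).fderiv]
    rw [sphereLog, Real.exp_sub, Real.exp_log (Real.cosh_pos _), Real.exp_neg]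
    have := (Real.cosh_pos z.1).ne'
    have := (Real.exp_pos (Real.log (10 - 4 * z.2) / 2)).ne'
    simp; field_simp
  have hsq : ∀ z ∈ slab 0 1, Real.exp (Real.log (10 - 4 * z.2) / 2) ^ 2 = 10 - 4 * z.2 := fun z hz => by
    rw [sq, ← Real.exp_add, add_halves, Real.exp_log (hr z hz)]
  have hw : ∀ z ∈ slab 0 1, dS (fun z => Real.exp (sphereLog z))
      (dS (fun z => Real.exp (sphereLog z)) sphereLog) z = -(Real.cosh z.1) ^ 2 / (10 - 4 * z.2) := fun z hz => by
    rw [dS_congr hz (g := fun z => -Real.sinh z.1 * Real.exp (-(Real.log (10 - 4 * z.2) / 2))) fun w hw => hv w hw]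
    have h1 := ((Real.hasDerivAt_sinh z.1).neg.mul_const (Real.exp (-(Real.log (10 - 4 * z.2) / 2))))
    have hs : Sm 0 1 fun z => -Real.sinh z.1 * Real.exp (-(Real.log (10 - 4 * z.2) / 2)) := fun n =>
      ((Real.contDiff_sinh.comp contDiff_fst).contDiffOn.neg).mul
        ((((contDiffOn_const.sub (contDiffOn_const.mul contDiff_snd.contDiffOn)).log
          fun z hz => (hr z hz).ne').div_const 2).neg.exp)
    have h2 := hasDerivAt_slice_x hs (x := z.1) (t := z.2) hz
    rw [dS, h2.unique h1, sphereLog, Real.exp_sub, Real.exp_log (Real.cosh_pos _), Real.exp_neg]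
    have := (Real.cosh_pos z.1).ne'
    have := (Real.exp_pos (Real.log (10 - 4 * z.2) / 2)).ne'
    conv_rhs => rw [← hsq z hz]
    field_simp
  have hE : ∀ z ∈ slab 0 1, Real.exp (-2 * sphereLog z) = Real.cosh z.1 ^ 2 / (10 - 4 * z.2) := fun z hz => by
    rw [sphereLog, show -2 * (Real.log (10 - 4 * z.2) / 2 - Real.log (Real.cosh z.1)) =
      (Real.log (Real.cosh z.1) + Real.log (Real.cosh z.1)) - Real.log (10 - 4 * z.2) by ring,
      Real.exp_sub, Real.exp_add, Real.exp_log (Real.cosh_pos _), Real.exp_log (hr z hz)]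
    ring
  have hv2 : ∀ z ∈ slab 0 1, dS (fun z => Real.exp (sphereLog z)) sphereLog z ^ 2 =
      Real.sinh z.1 ^ 2 / (10 - 4 * z.2) := fun z hz => by
    rw [hv z hz, Real.exp_neg, mul_pow, inv_pow, hsq z hz]; ring
  have hcs : ∀ x : ℝ, Real.cosh x ^ 2 = Real.sinh x ^ 2 + 1 := Real.cosh_sq
  have hs : ∀ t₁ : ℝ, t₁ < 1 → ∀ x, ∀ t, t ≤ t₁ → (0 : ℝ) < t → (x, t) ∈ slab 0 1 := fun t₁ h1 x t h2 h3 =>
    ⟨Set.mem_univ _, h3, h2.trans_lt h1⟩
  have hexp : ∀ x : ℝ, ∀ t, (x, t) ∈ slab 0 1 → Real.exp (sphereLog (x, t)) ≤ 4 / Real.cosh x := fun x t hz => by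
    rw [sphereLog, Real.exp_sub, Real.exp_log (Real.cosh_pos _)]
    refine div_le_div_of_nonneg_right ?_ (Real.cosh_pos x).le
    nlinarith [hsq (x, t) hz, hz.2.1, Real.exp_pos (Real.log (10 - 4 * (x, t).2) / 2)]
  refine ⟨fun n => (hu n).exp, fun _ n => hu n, fun z _ => Real.exp_pos _, fun z hz => ?_, fun i z hz => ?_,
    fun t₀ t₁ h0 h1 => ⟨4, fun x t ht => ?_⟩, fun t₀ t₁ h0 h1 ε hε => ⟨4 / ε + 1, fun x t ht hx => ?_⟩⟩
  · rw [dT, ((hd z hz).exp).fderiv]
    simp [hw z hz, hv2 z hz, hcs]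
    field_simp [(hr z hz).ne']; ring
  · rw [hT z hz]
    simp [hw z hz, hcs]
    rw [show dS (fun z => Real.exp (sphereLog z)) sphereLog z *
        (2 * dS (fun z => Real.exp (sphereLog z)) sphereLog z) =
        2 * dS (fun z => Real.exp (sphereLog z)) sphereLog z ^ 2 by ring, hv2 z hz,
      show -(2 * sphereLog z) = -2 * sphereLog z by ring, hE z hz, hcs]
    field_simp [(hr z hz).ne']; ring
  · have hz := hs t₁ h1 x t ht.2 (h0.trans_le ht.1)
    have hr' := hr _ hz
    refine ⟨(hexp x t hz).trans (div_le_self (by norm_num) (Real.one_le_cosh x)), ?_, ?_, fun i => i.elim0⟩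
    · rw [hE _ hz, hv2 _ hz, show (1 : ℝ) * (Real.cosh (x, t).1 ^ 2 / (10 - 4 * (x, t).2)) -
        (((2 : ℕ) : ℝ) - 1) * (Real.sinh (x, t).1 ^ 2 / (10 - 4 * (x, t).2)) = 1 / (10 - 4 * (x, t).2) by
          rw [hcs]; push_cast; ring, abs_of_pos (by positivity), div_le_iff₀ hr']
      linarith [hz.2.2]
    · rw [hw _ hz, hv2 _ hz, show -Real.cosh (x, t).1 ^ 2 / (10 - 4 * (x, t).2) +
        Real.sinh (x, t).1 ^ 2 / (10 - 4 * (x, t).2) = -(1 / (10 - 4 * (x, t).2)) by rw [hcs]; ring,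
        abs_neg, abs_of_pos (by positivity), div_le_iff₀ hr']
      linarith [hz.2.2]
  · have hz := hs t₁ h1 x t ht.2 (h0.trans_le ht.1)
    refine (hexp x t hz).trans_lt ?_
    rw [div_lt_iff₀ (Real.cosh_pos x)]
    have h2 : 4 / ε < Real.cosh x := by
      have h3 : |x| < Real.cosh |x| := by
        have := Real.add_one_le_exp |x|
        have := Real.cosh_eq |x|
        nlinarith [Real.exp_pos (-|x|), sq_nonneg (|x| - 1), Real.quadratic_le_exp_of_nonneg (abs_nonneg x)]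
      rw [Real.cosh_abs] at h3
      linarith
    rw [div_lt_iff₀ hε] at h2
    linarith

end

end Vale.Agent.P244
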