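import Mathlib
import Vale.Agent.P244.Defs
import Vale.Agent.P244.Calculus
import Vale.Agent.P244.Multi.Defs
import Vale.Agent.P244.Multi.Evolution
import Vale.Agent.P244.Multi.Estimates
import Vale.Agent.P244.Cap.Defs
import Vale.Agent.P244.Cap.Algebra
import Vale.Agent.P244.Cap.Evolution
import Vale.Agent.P244.Cap.Bound
import Vale.Agent.P244.Cap.Estimates

/-!
# P244: bounded scalar curvature bounds the curvature of a warped flow with poles
-/

open Set Finset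

namespace Vale.Agent.P244

noncomputable section

namespace IsCapFlow

variable {m : ℕ} {p : Fin (m + 1) → ℕ} {k : Fin (m + 1) → ℝ} {φ : ℝ × ℝ → ℝ}
  {u : Fin (m + 1) → ℝ × ℝ → ℝ} {a T : ℝ} (h : IsCapFlow p k a T φ u) {t₀ : ℝ} (ht₀ : t₀ ∈ Ioo a T)
include h ht₀

theorem other_bounds (hk0 : 0 ≤ k 0) (hk : ∀ i : Fin m, k i.succ ≤ 0) (i : Fin m) :
    ∃ M, ∀ z ∈ slab a T, t₀ ≤ z.2 → |u i.succ z| ≤ M ∧ |fibE k u i.succ z| ≤ M := by
  have hE0 : ∀ z, fibE k u i.succ z ≤ 0 := fun z => mul_nonpos_of_nonpos_of_nonneg (hk i) (Real.exp_pos _).le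
  have hfb : ∀ σ : ℝ, ∀ t₁ < T, ∃ C, ∀ x, ∀ t ∈ Icc t₀ t₁, σ * u i.succ (x, t) ≤ C := fun σ t₁ ht₁ => by
    obtain ⟨C, hC⟩ := h.bounded t₀ t₁ ht₀.1 ht₁
    exact ⟨|σ| * C, fun x t ht => (le_abs_self _).trans (by
      rw [abs_mul]; exact mul_le_mul_of_nonneg_left ((hC x t ht).2.2.2 i).1 (abs_nonneg σ))⟩
  obtain ⟨L, hL⟩ := h.sub_bound hk0 ht₀ ((Sm.const (-1 : ℝ)).mul (h.eqs.smU i.succ)) (hfb (-1)) (N := 0)
    fun w hw _ => by
      rw [heat_const_mul h.eqs.smP h.pos hw (h.eqs.smU _), h.eqs.heat_u hw]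
      linarith [hE0 w]
  have hE : ∀ z ∈ slab a T, t₀ ≤ z.2 → -fibE k u i.succ z ≤ -k i.succ * Real.exp (2 * L) := fun z hz hz' => by
    have := mul_le_mul_of_nonneg_left (Real.exp_le_exp.2 (by linarith [hL z hz hz'] : -2 * u i.succ z ≤ 2 * L))
      (neg_nonneg.2 (hk i))
    simp only [fibE]; linarith
  obtain ⟨U, hU⟩ := h.sub_bound hk0 ht₀ ((Sm.const (1 : ℝ)).mul (h.eqs.smU i.succ)) (hfb 1) fun w hw hw' => by
    rw [heat_const_mul h.eqs.smP h.pos hw (h.eqs.smU _), h.eqs.heat_u hw, one_mul]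
    exact hE w hw hw'
  refine ⟨|L| + |U| + |k i.succ * Real.exp (2 * L)|, fun z hz hz' => ⟨abs_le.2 ⟨?_, ?_⟩, ?_⟩⟩
  · linarith [hL z hz hz', le_abs_self L, abs_nonneg U, abs_nonneg (k i.succ * Real.exp (2 * L))]
  · linarith [hU z hz hz', le_abs_self U, abs_nonneg L, abs_nonneg (k i.succ * Real.exp (2 * L))]
  · rw [abs_of_nonpos (hE0 z)]
    linarith [hE z hz hz', neg_abs_le (k i.succ * Real.exp (2 * L)), abs_nonneg L, abs_nonneg U]

omit ht₀ in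
/-- On a compact time interval all the quantities of the test function are bounded. -/
theorem compact_bounds {t₁ t₂ : ℝ} (ht₁ : a < t₁) (ht₂ : t₂ < T) :
    ∃ C, ∀ x, ∀ t ∈ Icc t₁ t₂, |mR p k φ u (x, t)| ≤ C ∧ capQ p φ u (x, t) ≤ C ∧
      |capD p k φ u (x, t)| ≤ C ∧ capH p φ u (x, t) ≤ C := by
  obtain ⟨C, hC⟩ := h.bounded t₁ t₂ ht₁ ht₂
  obtain ⟨n, hn⟩ : ∃ n, (∑ i : Fin m, (p i.succ : ℝ)) = n := ⟨_, rfl⟩
  obtain ⟨e, he⟩ : ∃ e, ∑ i : Fin m, |k i.succ| * Real.exp (2 * C) = e := ⟨_, rfl⟩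
  obtain ⟨P, hP⟩ : ∃ P, (p 0 : ℝ) = P := ⟨_, rfl⟩
  refine ⟨P * (C + 2 * C) + n * e + 2 * (n * C) + 2 * (P * (n * C)) + n * (C * C) + n * C * (n * C) +
    (C + |P - 1| * C) + n * (C * C + P * (C * C)), fun x t ht => ?_⟩
  obtain ⟨-, hD, ha, hi⟩ := hC x t ht
  simp only [sq] at hD ha
  rw [show k 0 * Real.exp (-2 * u 0 (x, t)) = fibE k u 0 (x, t) from rfl, hP] at hD
  obtain ⟨D, hDe⟩ : ∃ D,
      fibE k u 0 (x, t) - (P - 1) * (dS φ (u 0) (x, t) * dS φ (u 0) (x, t)) = D := ⟨_, rfl⟩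
  obtain ⟨aR, hae⟩ : ∃ aR,
      dS φ (dS φ (u 0)) (x, t) + dS φ (u 0) (x, t) * dS φ (u 0) (x, t) = aR := ⟨_, rfl⟩
  rw [hDe] at hD
  rw [hae] at ha
  have hC0 : 0 ≤ C := (abs_nonneg _).trans hD
  have hpi : ∀ i ∈ (Finset.univ : Finset (Fin m)), (0 : ℝ) ≤ p i.succ := fun i _ => (p i.succ).cast_nonneg
  have hn0 : 0 ≤ n := hn ▸ sum_nonneg hpi
  have hP0 : 0 ≤ P := hP ▸ (p 0).cast_nonneg
  have he0 : 0 ≤ e := he ▸ sum_nonneg fun i _ => mul_nonneg (abs_nonneg _) (Real.exp_pos _).le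
  have sE := sum_bound Finset.univ (fun i : Fin m => (p i.succ : ℝ)) (fun i => fibE k u i.succ (x, t)) hpi
    (C := e) fun i _ => by
      rw [fibE, abs_mul, Real.abs_exp, ← he]
      refine le_trans ?_ (single_le_sum (f := fun i : Fin m => |k i.succ| * Real.exp (2 * C))
        (fun j _ => mul_nonneg (abs_nonneg _) (Real.exp_pos _).le) (Finset.mem_univ i))
      exact mul_le_mul_of_nonneg_left
        (Real.exp_le_exp.2 (by linarith [(abs_le.1 (hi i).1).1])) (abs_nonneg _)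
  have sW := sum_bound Finset.univ (fun i : Fin m => (p i.succ : ℝ))
    (fun i => dS φ (dS φ (u i.succ)) (x, t)) hpi (C := C) fun i _ => (hi i).2.2.1
  have sB := sum_bound Finset.univ (fun i : Fin m => (p i.succ : ℝ))
    (fun i => dS φ (u 0) (x, t) * dS φ (u i.succ) (x, t)) hpi (C := C) fun i _ => (hi i).2.2.2
  have sv := sum_bound Finset.univ (fun i : Fin m => (p i.succ : ℝ))
    (fun i => dS φ (u i.succ) (x, t)) hpi (C := C) fun i _ => (hi i).2.1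
  simp only [hn] at sE sW sB sv
  have hsq : ∀ y : ℝ, |y| ≤ C → y * y ≤ C * C := fun y hy => by
    rw [← abs_mul_abs_self y]; exact mul_self_le_mul_self (abs_nonneg y) hy
  have hq : capQ p φ u (x, t) ≤ n * (C * C) := by
    rw [← hn, sum_mul]; exact sum_le_sum fun i hi' => mul_le_mul_of_nonneg_left (hsq _ (hi i).2.1) (hpi i hi')
  have hH : capH p φ u (x, t) ≤ n * (C * C + P * (C * C)) := by
    rw [← hn, sum_mul]; refine sum_le_sum fun i hi' => mul_le_mul_of_nonneg_left ?_ (hpi i hi')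
    rw [hP]
    exact add_le_add (hsq _ (hi i).2.2.1) (mul_le_mul_of_nonneg_left (hsq _ (hi i).2.2.2) hP0)
  have hq0 := capQ_nonneg (p := p) (φ := φ) (u := u) (x, t)
  have hnC := mul_nonneg hn0 hC0
  have hPC := mul_nonneg hP0 hC0
  have hPnC := mul_nonneg hP0 hnC
  have hne := mul_nonneg hn0 he0
  have hCC := mul_nonneg hn0 (mul_self_nonneg C)
  have hnCC := mul_self_nonneg (n * C)
  have hH0 := mul_nonneg hn0 (add_nonneg (mul_self_nonneg C) (mul_nonneg hP0 (mul_self_nonneg C)))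
  have hP1C := mul_nonneg (abs_nonneg (P - 1)) hC0
  have eD : capD p k φ u (x, t) = D + (P - 1) * aR := by rw [← hDe, ← hae, capD, hP]; ring
  refine ⟨?_, by linarith, ?_, by linarith⟩
  · rw [mR_split, hP, hae, hDe]
    have h1 : |P * (D - 2 * aR)| ≤ P * (C + 2 * C) := by
      rw [abs_mul, abs_of_nonneg hP0]
      exact mul_le_mul_of_nonneg_left (abs_le.2
        ⟨by linarith [(abs_le.1 hD).1, (abs_le.1 ha).2], by linarith [(abs_le.1 hD).2, (abs_le.1 ha).1]⟩) hP0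
    have h2 := mul_le_mul_of_nonneg_left (abs_le.1 sB).1 hP0
    have h3 := mul_le_mul_of_nonneg_left (abs_le.1 sB).2 hP0
    have h4 := hsq
    have h5 : (∑ i : Fin m, (p i.succ : ℝ) * dS φ (u i.succ) (x, t)) *
        (∑ i : Fin m, (p i.succ : ℝ) * dS φ (u i.succ) (x, t)) ≤ n * C * (n * C) := by
      rw [← abs_mul_abs_self (∑ i : Fin m, (p i.succ : ℝ) * dS φ (u i.succ) (x, t))]
      exact mul_self_le_mul_self (abs_nonneg _) sv
    have h6 := mul_self_nonneg (∑ i : Fin m, (p i.succ : ℝ) * dS φ (u i.succ) (x, t))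
    refine abs_le.2 ⟨?_, ?_⟩ <;>
      linarith [(abs_le.1 h1).1, (abs_le.1 h1).2, (abs_le.1 sE).1, (abs_le.1 sE).2, (abs_le.1 sW).1,
        (abs_le.1 sW).2]
  · rw [eD]
    refine (abs_add_le _ _).trans ?_
    rw [abs_mul]
    linarith [mul_le_mul_of_nonneg_left ha (abs_nonneg (P - 1))]

/-- All curvature quantities are bounded up to the final time. -/
theorem curvature_bounds (hp : ∀ i, 1 ≤ p i) (hk0 : k 0 = (p 0 : ℝ) - 1) (hk : ∀ i : Fin m, k i.succ ≤ 0)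
    {C : ℝ} (hR : ∀ z ∈ slab a T, mR p k φ u z ≤ C) :
    ∃ G, ∀ z ∈ slab a T, t₀ ≤ z.2 →
      |fibE k u 0 z - ((p 0 : ℝ) - 1) * (dS φ (u 0) z * dS φ (u 0) z)| ≤ G ∧
      |dS φ (dS φ (u 0)) z + dS φ (u 0) z * dS φ (u 0) z| ≤ G ∧
      ∀ i : Fin m, |u i.succ z| ≤ G ∧ |dS φ (u i.succ) z| ≤ G ∧ |dS φ (dS φ (u i.succ)) z| ≤ G ∧
        |dS φ (u 0) z * dS φ (u i.succ) z| ≤ G := by
  have hk0' : 0 ≤ k 0 := hk0 ▸ (by linarith [show (1 : ℝ) ≤ p 0 by exact_mod_cast hp 0])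
  obtain ⟨M₁, hM₁0, hM₁⟩ := exists_uniform (a := a) (T := T) (t₀ := t₀)
    (P := fun i M z => |u (Fin.succ i) z| ≤ M ∧ |fibE k u (Fin.succ i) z| ≤ M)
    (fun i z M M' hM h' => ⟨h'.1.trans hM, h'.2.trans hM⟩) (h.other_bounds ht₀ hk0' hk)
  obtain ⟨Q₀, hQ₀⟩ := h.sub_bound hk0' ht₀ h.smCapQ (fun t₁ ht₁ => by
      obtain ⟨C, hC⟩ := h.compact_bounds (t₁ := t₀) (t₂ := t₁) ht₀.1 ht₁
      exact ⟨C, fun x t ht => (hC x t ht).2.1⟩) (N := 0) fun w hw _ => by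
    linarith [h.heat_capQ hk hw, capH_nonneg (p := p) (φ := φ) (u := u) w]
  obtain ⟨R₀, hR₀⟩ := h.sub_bound hk0' ht₀ ((Sm.const (-1 : ℝ)).mul h.eqs.smR) (fun t₁ ht₁ => by
      obtain ⟨C, hC⟩ := h.compact_bounds (t₁ := t₀) (t₂ := t₁) ht₀.1 ht₁
      exact ⟨C, fun x t ht => by linarith [(abs_le.1 (hC x t ht).1).1]⟩) (N := 0) fun w hw _ => by
    rw [heat_const_mul h.eqs.smP h.pos hw h.eqs.smR, h.eqs.heat_R hw]
    linarith [sum_nonneg fun j (_ : j ∈ Finset.univ) => mul_nonneg (p j).cast_nonneg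
      (sq_nonneg (fibE k u j w - dS φ (dS φ (u j)) w - msig p φ u w * dS φ (u j) w)),
      mul_self_nonneg (mK p φ u w)]
  obtain ⟨n, hn⟩ : ∃ n, (∑ i : Fin m, (p i.succ : ℝ)) = n := ⟨_, rfl⟩
  have hn0 : 0 ≤ n := hn ▸ sum_nonneg fun i _ => (p i.succ).cast_nonneg
  obtain ⟨M, hMe⟩ : ∃ M, 1 + n + M₁ + n * M₁ + |Q₀| + n * |Q₀| + |R₀| + |C| = M := ⟨_, rfl⟩
  have hnM := mul_nonneg hn0 hM₁0
  have hnQ := mul_nonneg hn0 (abs_nonneg Q₀)
  have hM1 : 1 ≤ M := by linarith [abs_nonneg Q₀, abs_nonneg R₀, abs_nonneg C]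
  have hbase : ∀ z ∈ slab a T, t₀ ≤ z.2 → |mR p k φ u z| ≤ M ∧ capQ p φ u z ≤ M ∧
      |∑ i : Fin m, (p i.succ : ℝ) * fibE k u i.succ z| ≤ M ∧
      (∑ i : Fin m, (p i.succ : ℝ) * dS φ (u i.succ) z) *
        (∑ i : Fin m, (p i.succ : ℝ) * dS φ (u i.succ) z) ≤ M ∧
      ∀ i : Fin m, dS φ (u i.succ) z * dS φ (u i.succ) z ≤ M ∧ |fibE k u i.succ z| ≤ M := fun z hz hz' => by
    have hq := hQ₀ z hz hz'
    refine ⟨abs_le.2 ⟨?_, ?_⟩, ?_, ?_, ?_, fun i => ⟨?_, ?_⟩⟩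
    · linarith [hR₀ z hz hz', le_abs_self R₀, abs_nonneg Q₀, abs_nonneg C]
    · linarith [hR z hz, le_abs_self C, abs_nonneg Q₀, abs_nonneg R₀]
    · linarith [le_abs_self Q₀, abs_nonneg R₀, abs_nonneg C]
    · refine (sum_bound Finset.univ _ _ (fun i _ => (p i.succ).cast_nonneg)
        fun i _ => (hM₁ i z hz hz').2).trans ?_
      rw [hn]; linarith [abs_nonneg R₀, abs_nonneg C, abs_nonneg Q₀]
    · have := weighted_cs Finset.univ (fun i : Fin m => (p i.succ : ℝ)) (fun _ => (1 : ℝ))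
        (fun i => dS φ (u i.succ) z) (fun i _ => (p i.succ).cast_nonneg)
      simp only [one_mul, mul_one, hn] at this
      refine this.trans ((mul_le_mul_of_nonneg_left (hq.trans (le_abs_self Q₀)) hn0).trans ?_)
      linarith [abs_nonneg R₀, abs_nonneg C, abs_nonneg Q₀]
    · have := single_le_sum (f := fun i : Fin m => (p i.succ : ℝ) * (dS φ (u i.succ) z * dS φ (u i.succ) z))
        (fun j _ => mul_nonneg (p j.succ).cast_nonneg (mul_self_nonneg _)) (Finset.mem_univ i)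
      linarith [show (∑ i : Fin m, (p i.succ : ℝ) * (dS φ (u i.succ) z * dS φ (u i.succ) z)) = capQ p φ u z from rfl,
        le_mul_of_one_le_left (mul_self_nonneg (dS φ (u i.succ) z)) (show (1 : ℝ) ≤ p i.succ by exact_mod_cast hp _),
        le_abs_self Q₀, abs_nonneg R₀, abs_nonneg C]
    · linarith [(hM₁ i z hz hz').2, abs_nonneg R₀, abs_nonneg C, abs_nonneg Q₀]
  obtain ⟨N, B, hN, hheat⟩ := h.exists_test hp hk hM1
    (by rw [hn]; linarith [abs_nonneg Q₀, abs_nonneg R₀, abs_nonneg C]) hbase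
  obtain ⟨F₀, hF₀⟩ := h.sub_bound hk0' ht₀ (h.smCapF (16 * M) N) (fun t₁ ht₁ => by
      obtain ⟨C', hC'⟩ := h.compact_bounds (t₁ := t₀) (t₂ := t₁) ht₀.1 ht₁
      refine ⟨Real.sqrt (1 + C' * C') + C' * (16 * M + C') + N * C', fun x t ht => ?_⟩
      obtain ⟨r1, r2, r3, r4⟩ := hC' x t ht
      have e1 : Real.sqrt (1 + capD p k φ u (x, t) * capD p k φ u (x, t)) ≤ Real.sqrt (1 + C' * C') :=
        Real.sqrt_le_sqrt (by
          linarith [mul_self_le_mul_self (abs_nonneg _) r3, abs_mul_abs_self (capD p k φ u (x, t))])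
      have e2 := mul_le_mul r4 (by linarith : 16 * M + capQ p φ u (x, t) ≤ 16 * M + C')
        (by linarith [capQ_nonneg (p := p) (φ := φ) (u := u) (x, t)]) ((abs_nonneg _).trans r1)
      have e3 := mul_le_mul_of_nonneg_left (abs_le.1 r1).1 hN
      simp only [capF]; linarith) hheat
  obtain ⟨G, hG⟩ : ∃ G, |F₀| + N * M = G := ⟨_, rfl⟩
  have hG0 : 0 ≤ G := hG ▸ add_nonneg (abs_nonneg _) (mul_nonneg hN (by linarith))
  obtain ⟨P, hP⟩ : ∃ P, (p 0 : ℝ) = P := ⟨_, rfl⟩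
  have hP1 : 1 ≤ P := hP ▸ by exact_mod_cast hp 0
  obtain ⟨A, hA⟩ : ∃ A, 4 * M + 2 * (n * (1 + G)) + 2 * (P * (n * (1 + G))) = A := ⟨_, rfl⟩
  refine ⟨M + 1 + G + (P + 1) * (P * G + A), fun z hz hz' => ?_⟩
  obtain ⟨hr, hq, hS, hσ, hi⟩ := hbase z hz hz'
  have hq0 := capQ_nonneg (p := p) (φ := φ) (u := u) z
  have hH0 := capH_nonneg (p := p) (φ := φ) (u := u) z
  have hF := hF₀ z hz hz'
  simp only [capF] at hF
  have hsum : Real.sqrt (1 + capD p k φ u z * capD p k φ u z) + capH p φ u z ≤ G := by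
    linarith [le_mul_of_one_le_right hH0 (by linarith : 1 ≤ 16 * M + capQ p φ u z), le_abs_self F₀,
      mul_le_mul_of_nonneg_left (abs_le.1 hr).2 hN]
  have hd : |capD p k φ u z| ≤ G := by
    have : |capD p k φ u z| ≤ Real.sqrt (1 + capD p k φ u z * capD p k φ u z) := by
      rw [← Real.sqrt_mul_self_eq_abs]; exact Real.sqrt_le_sqrt (by linarith)
    linarith
  have hHG : capH p φ u z ≤ G := by linarith [Real.sqrt_nonneg (1 + capD p k φ u z * capD p k φ u z)]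
  have habs : ∀ y : ℝ, |y| ≤ 1 + y * y := fun y => by nlinarith [abs_mul_abs_self y, sq_nonneg (|y| - 1)]
  have hwB : ∀ i : Fin m, |dS φ (dS φ (u i.succ)) z| ≤ 1 + G ∧
      |dS φ (u 0) z * dS φ (u i.succ) z| ≤ 1 + G := fun i => by
    have h1 := single_le_sum (f := fun i : Fin m => (p i.succ : ℝ) *
      (dS φ (dS φ (u i.succ)) z * dS φ (dS φ (u i.succ)) z +
        (p 0 : ℝ) * (dS φ (u 0) z * dS φ (u i.succ) z * (dS φ (u 0) z * dS φ (u i.succ) z))))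
      (fun j _ => mul_nonneg (p j.succ).cast_nonneg
        (add_nonneg (mul_self_nonneg _) (mul_nonneg (p 0).cast_nonneg (mul_self_nonneg _))))
      (Finset.mem_univ i)
    have hB0 := mul_self_nonneg (dS φ (u 0) z * dS φ (u i.succ) z)
    have hw0 := mul_self_nonneg (dS φ (dS φ (u i.succ)) z)
    have hPB := le_mul_of_one_le_left hB0 hP1
    rw [hP] at h1
    have h2 := h1.trans_eq (show _ = capH p φ u z by rw [capH, hP])
    have h3 := (le_mul_of_one_le_left (add_nonneg hw0 (hB0.trans hPB))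
      (show (1 : ℝ) ≤ p i.succ by exact_mod_cast hp _)).trans h2
    exact ⟨(habs _).trans (by linarith), (habs _).trans (by linarith)⟩
  have sW := sum_bound Finset.univ (fun i : Fin m => (p i.succ : ℝ)) (fun i => dS φ (dS φ (u i.succ)) z)
    (fun i _ => (p i.succ).cast_nonneg) (C := 1 + G) fun i _ => (hwB i).1
  have sB := sum_bound Finset.univ (fun i : Fin m => (p i.succ : ℝ))
    (fun i => dS φ (u 0) z * dS φ (u i.succ) z)
    (fun i _ => (p i.succ).cast_nonneg) (C := 1 + G) fun i _ => (hwB i).2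
  simp only [hn] at sW sB
  have eR := mR_split (p := p) (k := k) (φ := φ) (u := u) z
  obtain ⟨D, hD⟩ : ∃ D, fibE k u 0 z - (P - 1) * (dS φ (u 0) z * dS φ (u 0) z) = D := ⟨_, rfl⟩
  obtain ⟨aR, haR⟩ : ∃ aR, dS φ (dS φ (u 0)) z + dS φ (u 0) z * dS φ (u 0) z = aR := ⟨_, rfl⟩
  rw [hP, hD, haR] at eR
  have eD : capD p k φ u z = D + (P - 1) * aR := by rw [← hD, ← haR, capD, hP]; ring
  rw [hP, hD, haR]
  have hP0 : 0 ≤ P := by linarith
  have hρ : |P * (D - 2 * aR)| ≤ A := by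
    have h1 := mul_le_mul_of_nonneg_left (abs_le.1 sB).1 hP0
    have h2 := mul_le_mul_of_nonneg_left (abs_le.1 sB).2 hP0
    have h3 := mul_self_nonneg (∑ i : Fin m, (p i.succ : ℝ) * dS φ (u i.succ) z)
    refine abs_le.2 ⟨?_, ?_⟩ <;>
      linarith [(abs_le.1 hr).1, (abs_le.1 hr).2, (abs_le.1 hS).1, (abs_le.1 hS).2, (abs_le.1 sW).1,
        (abs_le.1 sW).2]
  have hA0 : 0 ≤ A := (abs_nonneg _).trans hρ
  have hPa : |P * (P + 1) * aR| ≤ P * G + A := by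
    have e : P * (P + 1) * aR = P * capD p k φ u z - P * (D - 2 * aR) := by rw [eD]; ring
    rw [e]
    refine (abs_sub _ _).trans ?_
    rw [abs_mul, abs_of_nonneg hP0]
    exact add_le_add (mul_le_mul_of_nonneg_left hd hP0) hρ
  have haB : |aR| ≤ P * G + A := by
    rw [abs_mul, abs_of_nonneg (by positivity : 0 ≤ P * (P + 1))] at hPa
    refine le_trans (le_mul_of_one_le_left (abs_nonneg aR) ?_) hPa
    calc (1 : ℝ) = 1 * 1 := by ring
      _ ≤ P * (P + 1) := mul_le_mul hP1 (by linarith) zero_le_one hP0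
  have hX0 : 0 ≤ P * G + A := (abs_nonneg _).trans haB
  have hbig : P * G + A ≤ (P + 1) * (P * G + A) := le_mul_of_one_le_left hX0 (by linarith)
  refine ⟨?_, by linarith, fun i => ⟨?_, ?_, ?_, ?_⟩⟩
  · have e : D = capD p k φ u z - (P - 1) * aR := by rw [eD]; ring
    rw [e]
    refine (abs_sub _ _).trans ?_
    rw [abs_mul, abs_of_nonneg (by linarith : 0 ≤ P - 1)]
    linarith [mul_le_mul_of_nonneg_left haB (by linarith : 0 ≤ P - 1)]
  · linarith [(hM₁ i z hz hz').1, abs_nonneg Q₀, abs_nonneg R₀, abs_nonneg C]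
  · linarith [habs (dS φ (u i.succ) z), (hi i).1]
  · linarith [(hwB i).1]
  · linarith [(hwB i).2]

end IsCapFlow

end

end Vale.Agent.P244
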